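import Vale.Agent.P201.HF

/-! Coarsening planar maps. -/

namespace Vale.Agent.P201

open Function Finset Equiv Vale.Agent.P194

variable {D : Type} [Fintype D] [DecidableEq D]

theorem exists_sep (φ : Perm D) (h : ℕ) (h0 : 0 < h)
    (hf : ∀ d n, 0 < n → n < h → (φ ^ n) d ≠ d) :
    ∃ S : Finset D, S.card * h ≤ Fintype.card D ∧ ∀ d, ∃ i, 0 < i ∧ i < 2 * h ∧ (φ ^ i) d ∈ S := by
  classical
  obtain ⟨S, hS, hmax⟩ := ((univ : Finset (Finset D)).filter fun S =>
    ∀ x ∈ S, ∀ i, 0 < i → i < h → (φ ^ i) x ∉ S).exists_max_image card ⟨∅, by simp⟩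
  simp only [mem_filter, mem_univ, true_and] at hS hmax
  refine ⟨S, ?_, fun d => ?_⟩
  · have : (S ×ˢ range h).card ≤ (univ : Finset D).card := by
      refine card_le_card_of_injOn (fun a => (φ ^ a.2) a.1) (fun _ _ => mem_univ _) ?_
      rintro ⟨x, i⟩ ha ⟨y, j⟩ hb e
      simp only [coe_product, Set.mem_prod, mem_coe, mem_range] at ha hb
      wlog c : i ≤ j generalizing x y i j
      · exact (this y j x i e.symm hb ha (by omega)).symm
      obtain ⟨k, rfl⟩ := Nat.exists_eq_add_of_le c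
      simp only [pow_add, Perm.mul_apply, EmbeddingLike.apply_eq_iff_eq] at e
      rcases Nat.eq_zero_or_pos k with rfl | hk
      · simpa using e
      · exact absurd (e ▸ ha.1) (hS y hb.1 k hk (by omega))
    simpa using this
  · by_contra hc
    push Not at hc
    have n : (φ ^ h) d ∉ S := hc h h0 (by omega)
    refine absurd (hmax (insert ((φ ^ h) d) S) ?_) (by rw [card_insert_of_notMem n]; omega)
    intro x hx i i0 i1 hi
    rw [mem_insert] at hx hi
    rcases hx with rfl | hx <;> rcases hi with hi | hi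
    · exact hf _ i i0 i1 hi
    · rw [← Perm.mul_apply, ← pow_add] at hi
      exact hc _ (by omega) (by omega) hi
    · rw [show h = i + (h - i) by omega, pow_add, Perm.mul_apply] at hi
      exact hc (h - i) (by omega) (by omega) ((φ ^ i).injective hi ▸ hx)
    · exact hS x hx i i0 i1 hi

theorem bad_card (φ : Perm D) (α : D → D) (hα : Involutive α) (hn : ∀ d, α d ≠ d) (H : Pl φ α)
    (h1 : ∀ d, φ (α d) ≠ d) (g : ℕ) (hf : ∀ d n, 0 < n → (φ ^ n) d = d → g ≤ n) :
    g * (univ.filter fun d => φ (α (φ (α d))) ≠ d).card ≤ 6 * Fintype.card D := by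
  rcases isEmpty_or_nonempty D with e | e
  · simp
  let σ : Perm D := φ * hα.toPerm
  have hσ : ∀ d, σ d = φ (α d) := fun _ => rfl
  have e := euler φ.bijective hα H
  have w1 := weight σ (fun d => if σ (σ d) = d then 3 else 2) 6 (by norm_num) (by
    intro d
    have p : ∀ e ∈ orb σ d, (0 : ℚ) ≤ if σ (σ e) = e then 3 else 2 := fun e _ => by
      split_ifs <;> norm_num
    have m0 := self_mem_orb σ d
    have m1 := (apply_mem_orb σ).2 m0
    have m2 := (apply_mem_orb σ).2 m1
    have b1 : d ≠ σ d := (h1 d).symm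
    by_cases b2 : σ (σ d) = d
    · refine le_trans ?_ (orb_ge2 _ p m0 m1 b1)
      rw [b2, if_pos rfl, if_pos rfl]; norm_num
    · refine le_trans ?_ (orb_ge3 _ p m0 m1 m2 b1 (Ne.symm b2) (fun hc => b1 (σ.injective hc)))
      split_ifs <;> norm_num)
  have w2 := weight φ (fun _ => 1) g (by positivity) (fun d => by
    simpa using orb_card φ d g (hf d))
  have w3 := weight hα.toPerm (fun _ => 1) 2 (by norm_num) (fun d => by
    refine le_trans ?_ (orb_ge2 _ (fun _ _ => zero_le_one) (self_mem_orb _ d)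
      ((apply_mem_orb _).2 (self_mem_orb _ d)) (hn d).symm)
    norm_num)
  have e' : (Fintype.card D : ℚ) + 2 ≤ Module.finrank ℚ (P194.Inv φ) +
      Module.finrank ℚ (P194.Inv σ) + Module.finrank ℚ (P194.Inv hα.toPerm) := by
    exact_mod_cast e
  have e2 : ∑ d, (if σ (σ d) = d then (3 : ℚ) else 2) = 3 * Fintype.card D -
      (univ.filter fun d => φ (α (φ (α d))) ≠ d).card := by
    rw [card_filter, eq_sub_iff_add_eq]
    push_cast
    rw [← sum_add_distrib, sum_congr rfl (g := fun _ => 3)]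
    · simp [mul_comm]
    · intro d _
      simp only [hσ]
      split_ifs <;> simp_all
      norm_num
  rw [e2] at w1
  simp only [sum_const, card_univ, nsmul_eq_mul, mul_one] at w2 w3
  have : (g : ℚ) * (univ.filter fun d => φ (α (φ (α d))) ≠ d).card ≤ 6 * Fintype.card D := by
    have : ((univ.filter fun d => φ (α (φ (α d))) ≠ d).card : ℚ) ≤
        6 * Module.finrank ℚ (P194.Inv φ) := by linarith
    calc _ ≤ (g : ℚ) * (6 * Module.finrank ℚ (P194.Inv φ)) := by gcongr
      _ ≤ _ := by linarith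
  exact_mod_cast this

theorem coarse (φ : Perm D) (α : D → D) (hα : Involutive α) (H : Pl φ α) (K : Finset D)
    (k1 : ∀ d, φ (α d) ∈ K ↔ d ∈ K) (k2 : ∀ d, d ∉ K → φ (α (φ (α d))) = d) (h : ℕ)
    (k3 : ∀ d, ∃ i, 0 < i ∧ i ≤ h ∧ (φ ^ i) d ∈ K) :
    ∃ (L : K → ℕ) (nxt : Perm K) (β : K → K), Involutive β ∧ Pl nxt β ∧
      (∀ x, 0 < L x ∧ L x ≤ h) ∧ (∀ x, L (β x) = L x) ∧ (∀ x, (nxt x).1 = (φ ^ L x) x) ∧
      (∀ x i, i < L x → (φ ^ i) (β x) = α ((φ ^ (L x - 1 - i)) x)) ∧
      Fintype.card D ≤ ∑ x, L x := by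
  classical
  have ex : ∀ d, ∃ i, 0 < i ∧ (φ ^ i) d ∈ K := fun d => by
    obtain ⟨i, a, -, b⟩ := k3 d; exact ⟨i, a, b⟩
  let L : D → ℕ := fun d => Nat.find (ex d)
  have L0 : ∀ d, 0 < L d := fun d => (Nat.find_spec (ex d)).1
  have L1 : ∀ d, (φ ^ L d) d ∈ K := fun d => (Nat.find_spec (ex d)).2
  have L2 : ∀ d i, 0 < i → i < L d → (φ ^ i) d ∉ K := fun d i a b c =>
    Nat.find_min (ex d) b ⟨a, c⟩
  have L3 : ∀ d, L d ≤ h := fun d => by
    obtain ⟨i, a, b, c⟩ := k3 d
    exact (Nat.find_min' (ex d) ⟨a, c⟩).trans b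
  have sc : ∀ i d, φ ((φ ^ i) d) = (φ ^ (i + 1)) d := fun i d => by rw [pow_succ']; rfl
  have uq : ∀ x ∈ K, ∀ y ∈ K, ∀ i < L x, ∀ j < L y, (φ ^ i) x = (φ ^ j) y → x = y ∧ i = j := by
    intro x hx y hy i hi j hj e
    wlog c : i ≤ j generalizing x y i j
    · have := this y hy x hx j hj i hi e.symm (by omega)
      exact ⟨this.1.symm, this.2.symm⟩
    obtain ⟨k, rfl⟩ := Nat.exists_eq_add_of_le c
    simp only [pow_add, Perm.mul_apply, EmbeddingLike.apply_eq_iff_eq] at e
    rcases Nat.eq_zero_or_pos k with rfl | hk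
    · simpa using e
    · exact absurd (e ▸ hx) (L2 y k hk (by omega))
  have cov : ∀ d, ∃ x ∈ K, ∃ i < L x, (φ ^ i) x = d := by
    intro d
    have : ∀ n, ∀ x ∈ K, (φ ^ n) x = d → ∃ x ∈ K, ∃ i < L x, (φ ^ i) x = d := by
      intro n
      induction n using Nat.strong_induction_on with
      | _ n ih =>
      intro x hx e
      by_cases c : n < L x
      · exact ⟨x, hx, n, c, e⟩
      · refine ih (n - L x) (by have := L0 x; omega) _ (L1 x) ?_
        rw [← Perm.mul_apply, ← pow_add, Nat.sub_add_cancel (not_lt.1 c), e]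
    obtain ⟨n, hn⟩ := (Perm.sameCycle_pow_left (n := L d)).2 (Perm.SameCycle.refl φ d)
      |>.exists_nat_pow_eq
    exact this n _ (L1 d) hn
  let b : D → D := fun x => α ((φ ^ (L x - 1)) x)
  have b0 : ∀ x, b x ∈ K := fun x => by
    rw [← k1, hα, sc, Nat.sub_add_cancel (L0 x)]; exact L1 x
  have b1 : ∀ x i, i < L x → (φ ^ i) (b x) = α ((φ ^ (L x - 1 - i)) x) := by
    intro x i
    induction i with
    | zero => intro _; rfl
    | succ i ih =>
      intro hi
      have := k2 _ (L2 x (L x - 1 - i) (by omega) (by omega))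
      rw [← sc, ih (by omega)]
      conv_rhs at this => rw [show L x - 1 - i = L x - 1 - (i + 1) + 1 by omega, ← sc]
      rw [← φ.injective this, hα]
  have b2 : ∀ x, (φ ^ L x) (b x) = φ (α x) := fun x => by
    have := b1 x (L x - 1) (by have := L0 x; omega)
    rw [Nat.sub_self] at this
    rw [← Nat.sub_add_cancel (L0 x), ← sc, this]; rfl
  have b3 : ∀ x ∈ K, L (b x) = L x := by
    intro x hx
    refine le_antisymm (Nat.find_min' _ ⟨L0 x, by rw [b2, k1]; exact hx⟩) (not_lt.1 fun hc => ?_)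
    have := L1 (b x)
    rw [← Nat.sub_add_cancel (L0 (b x)), ← sc, b1 x _ (by omega), k1] at this
    exact L2 x _ (by have := L0 (b x); omega) (by omega) this
  have b4 : ∀ x ∈ K, b (b x) = x := fun x hx => by
    change α ((φ ^ (L (b x) - 1)) (b x)) = x
    rw [b3 x hx, b1 x _ (by have := L0 x; omega), hα, Nat.sub_self]; rfl
  let n : K → K := fun x => ⟨(φ ^ L x) x, L1 x⟩
  have ni : Injective n := by
    intro x y e
    have e' : (φ ^ L x) x.1 = (φ ^ L y) y.1 := congrArg Subtype.val e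
    rw [← Nat.sub_add_cancel (L0 x), ← Nat.sub_add_cancel (L0 y), ← sc, ← sc] at e'
    exact Subtype.ext (uq _ x.2 _ y.2 _ (by have := L0 x; omega) _ (by have := L0 y; omega)
      (φ.injective e')).1
  let β : K → K := fun x => ⟨b x, b0 x⟩
  refine ⟨fun x => L x, Equiv.ofBijective n (Finite.injective_iff_bijective.1 ni), β,
    fun x => Subtype.ext (b4 x x.2), ?_, fun x => ⟨L0 x, L3 x⟩, fun x => b3 x x.2, fun _ => rfl,
    fun x => b1 x, ?_⟩
  · intro u hu
    change ∀ x, u (n (β x)) - u (β x) = u x - u (n x) at hu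
    choose st s1 ix s2 s3 using cov
    let c : K → ℚ := fun x => (u x - u (n (β x))) / 2
    let f : D → ℚ := fun d => if hd : d ∈ K then u ⟨d, hd⟩ else c ⟨st d, s1 d⟩
    have f1 : ∀ x : K, f x = u x := fun x => by simp [f]
    have f2 : ∀ (x : K) i, 0 < i → i < L x → f ((φ ^ i) x) = c x := by
      intro x i a1 a2
      simp only [f, dif_neg (L2 x i a1 a2)]
      congr 1
      exact Subtype.ext (uq _ (s1 _) _ x.2 _ (s2 _) _ a2 (s3 _)).1
    have f3 : ∀ (x : K) i, i < L x → f (φ ((φ ^ i) x)) - f ((φ ^ i) x) =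
        (if i + 1 = L x then u (n x) else c x) - if i = 0 then u x else c x := by
      intro x i hi
      congr 1
      · rw [sc]
        split_ifs with e
        · rw [e]; exact f1 (n x)
        · exact f2 x _ (by omega) (by omega)
      · split_ifs with e
        · rw [e]; exact f1 x
        · exact f2 x _ (by omega) hi
    obtain ⟨B, B1, B2⟩ := H f (by
      intro d
      have a1 := f3 ⟨st d, s1 d⟩ (ix d) (s2 d)
      have a2 := f3 (β ⟨st d, s1 d⟩) (L (st d) - 1 - ix d)
        (by have := s2 d; simp only [β, b3 _ (s1 d)]; omega)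
      have a3 := hu ⟨st d, s1 d⟩
      have a4 : β (β ⟨st d, s1 d⟩) = ⟨st d, s1 d⟩ := Subtype.ext (b4 _ (s1 d))
      have := s2 d
      simp only [c, a4] at a1 a2
      simp only [β, b3 _ (s1 d)] at a1 a2 a3
      rw [b1 _ _ (by omega), show L (st d) - 1 - (L (st d) - 1 - ix d) = ix d by omega] at a2
      rw [s3] at a1 a2
      split_ifs at a1 a2 <;> first | omega | linarith)
    refine ⟨fun x => B x, fun x => ?_, fun x => ?_⟩
    · change B ((φ ^ L x) x) = B (α _)
      rw [← B1, sc, Nat.sub_add_cancel (L0 x)]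
    · change B ((φ ^ L x) x) - B x = u (n x) - u x
      rw [← f1, ← f1]
      change _ = f ((φ ^ L x) x) - _
      generalize L x = i
      induction i with
      | zero => simp
      | succ i ih => have := B2 ((φ ^ i) x); rw [← sc]; linarith
  · rw [← card_univ]
    refine le_trans (card_le_card_of_surjOn (s := univ.sigma fun x : K => range (L x))
      (fun a => (φ ^ a.2) a.1) ?_) (by simp [card_sigma])
    intro d _
    obtain ⟨x, hx, i, hi, e⟩ := cov d
    exact ⟨⟨⟨x, hx⟩, i⟩, by simpa using hi, e⟩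

end Vale.Agent.P201
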