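import Vale.Agent.P194.SC

/-! Diagrams with a tracked chain. -/

namespace Vale.Agent.P201

open Equiv Function Vale.Agent.P194

section moves
variable {S W G A : Type} [Group G] [AddCommGroup A] {Step : W → S × Bool → W → Prop}
  {γ : S × Bool → G} {x y : W}

/-- the chain of a diagram -/
def Z (wt : G → W → S × Bool → A) (Δ : Dg Step γ x y) : A :=
  ∑ d, if Δ.α d = d then 0 else wt (Δ.el d) (Δ.pos d) (Δ.lab d)

theorem sum_two {D : Type} [Fintype D] [DecidableEq D] {F F' : D → A} {d d' : D} (n : d ≠ d')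
    (h : F d + F d' = F' d + F' d') (h' : ∀ e, e ≠ d → e ≠ d' → F e = F' e) :
    ∑ e, F e = ∑ e, F' e := by
  rw [← sub_eq_zero, ← Finset.sum_sub_distrib, Fintype.sum_eq_add d d' n]
  · rw [sub_add_sub_comm, h, sub_self]
  · intro e he; rw [h' e he.1 he.2, sub_self]

variable (wt : G → W → S × Bool → A)

theorem moveK (Δ : Dg Step γ x y) (d : Δ.D) (hd : Δ.α d = d) (hs : d ≠ Δ.star) :
    ∃ Δ' : Dg Step γ x y, Δ'.mu < Δ.mu ∧ Δ'.el Δ'.star = Δ.el Δ.star ∧ Z wt Δ' = Z wt Δ := by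
  have hα : ∀ e, e ≠ d → Δ.α e ≠ d := fun e he hc => he (by
    rw [← Δ.invol e, hc, hd])
  let ψ : Perm Δ.D := Δ.φ * swap (Δ.φ⁻¹ d) d
  have hψd : ψ d = d := by simp [ψ]
  have hψ : ∀ e, e ≠ d → ψ e = if Δ.φ e = d then Δ.φ d else Δ.φ e := by
    intro e he
    by_cases c : Δ.φ e = d
    · have : e = Δ.φ⁻¹ d := by rw [← c]; simp
      rw [if_pos c, this]; simp [ψ]
    · have : e ≠ Δ.φ⁻¹ d := by rintro rfl; exact c (by simp)
      rw [if_neg c]
      change Δ.φ (swap (Δ.φ⁻¹ d) d e) = _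
      rw [swap_apply_of_ne_of_ne this he]
  have hsub : ∀ e, ψ e ≠ d ↔ e ≠ d := fun e => by
    rw [not_iff_not]
    constructor
    · intro h; exact ψ.injective (h.trans hψd.symm)
    · rintro rfl; exact hψd
  let φ' : Perm {e // e ≠ d} := ψ.subtypePerm hsub
  have hφ' : ∀ e, (φ' e).1 = if Δ.φ e.1 = d then Δ.φ d else Δ.φ e.1 := fun e => hψ e.1 e.2
  have hp : ∀ e, Δ.pos (φ' e).1 = Δ.pos (Δ.φ e.1) := by
    intro e; rw [hφ']; split_ifs with c
    · rw [c, Δ.hdum d hd hs]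
    · rfl
  have he : ∀ e, Δ.el (φ' e).1 = Δ.el (Δ.φ e.1) := by
    intro e; rw [hφ']; split_ifs with c
    · rw [c, Δ.hel d, hd]
    · rfl
  refine ⟨{ D := {e // e ≠ d}
            φ := φ'
            α := fun e => ⟨Δ.α e.1, hα _ e.2⟩
            invol := fun e => Subtype.ext (Δ.invol e.1)
            star := ⟨Δ.star, hs.symm⟩
            hstar := Subtype.ext Δ.hstar
            pl := Pl_K hd (fun _ => rfl) hφ' Δ.pl
            lab := fun e => Δ.lab e.1
            pos := fun e => Δ.pos e.1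
            el := fun e => Δ.el e.1
            hlab := fun e h => Δ.hlab e.1 (fun hc => h (Subtype.ext hc))
            hstep := fun e h => by
              rw [hp]; exact Δ.hstep e.1 (fun hc => h (Subtype.ext hc))
            hdum := fun e h h' => by
              rw [hp]
              exact Δ.hdum e.1 (congrArg Subtype.val h) (fun hc => h' (Subtype.ext hc))
            hx := by rw [hp]; exact Δ.hx
            hy := Δ.hy
            hel := fun e => by rw [he]; exact Δ.hel e.1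
            hel2 := fun e h => by
              rw [he]; exact Δ.hel2 e.1 (fun hc => h (Subtype.ext hc)) }, ?_, rfl, ?_⟩
  swap
  · unfold Z
    rw [← Finset.sum_erase Finset.univ (a := d) (by simp [hd]),
      Finset.sum_subtype (Finset.univ.erase d) (p := fun e => e ≠ d) (by simp)]
    refine Finset.sum_congr rfl fun e _ => ?_
    simp only [Subtype.ext_iff]
  unfold Dg.mu
  refine Nat.add_lt_add_of_lt_of_le ?_ ?_
  · exact Fintype.card_subtype_lt (p := fun e => e ≠ d) (x := d) (by simp)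
  · refine Finset.card_le_card_of_injOn Subtype.val ?_ Subtype.val_injective.injOn
    intro e he
    simp only [Finset.coe_filter, Finset.mem_univ, true_and, Set.mem_setOf_eq] at he ⊢
    exact fun hc => he (Subtype.ext hc)

theorem moveE (hw : ∀ g p a q, Step p a q → wt g p a + wt (g * γ a) q (linv a) = 0)
    (Δ : Dg Step γ x y) (d : Δ.D) (hd : Δ.α d ≠ d)
    (h1 : Δ.pos (Δ.φ d) = Δ.pos (Δ.α d)) (h2 : Δ.pos (Δ.φ (Δ.α d)) = Δ.pos d) :
    ∃ Δ' : Dg Step γ x y, Δ'.mu < Δ.mu ∧ Δ'.el Δ'.star = Δ.el Δ.star ∧ Z wt Δ' = Z wt Δ := by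
  obtain ⟨d', hd'⟩ : ∃ d', Δ.α d = d' := ⟨_, rfl⟩
  have hd'' : Δ.α d' = d := by rw [← hd', Δ.invol]
  rw [hd'] at hd h1 h2
  let α' : Δ.D → Δ.D := fun e => if e = d ∨ e = d' then e else Δ.α e
  let φ' : Perm Δ.D := Δ.φ * swap d d'
  have a1 : α' d = d := by simp [α']
  have a2 : α' d' = d' := by simp [α']
  have a3 : φ' d = Δ.φ d' := by simp [φ']
  have a4 : φ' d' = Δ.φ d := by simp [φ']
  have a5 : ∀ e, e ≠ d → e ≠ d' → φ' e = Δ.φ e ∧ α' e = Δ.α e ∧ Δ.α e ≠ d ∧ Δ.α e ≠ d' := by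
    intro e c1 c2
    refine ⟨by simp [φ', swap_apply_of_ne_of_ne c1 c2], by simp [α', c1, c2], ?_, ?_⟩
    · intro hc; apply c2; rw [← Δ.invol e, hc, hd']
    · intro hc; apply c1; rw [← Δ.invol e, hc, hd'']
  have s1 : Δ.star ≠ d := by
    intro hc; apply hd; rw [← hd', ← hc, Δ.hstar]
  have s2 : Δ.star ≠ d' := by
    intro hc; apply hd; rw [← hd'', ← hc, Δ.hstar]
  have nd : ∀ e, α' e ≠ e → e ≠ d ∧ e ≠ d' := fun e he =>
    ⟨by rintro rfl; exact he a1, by rintro rfl; exact he a2⟩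
  refine ⟨{ D := Δ.D
            φ := φ'
            α := α'
            invol := ?_
            star := Δ.star
            hstar := by rw [(a5 _ s1 s2).2.1, Δ.hstar]
            pl := Pl_E hd' hd'' a3 a4 a1 a2 a5 Δ.pl
            lab := Δ.lab
            pos := Δ.pos
            el := Δ.el
            hlab := ?_
            hstep := ?_
            hdum := ?_
            hx := by rw [(a5 _ s1 s2).1, Δ.hx]
            hy := Δ.hy
            hel := ?_
            hel2 := ?_ }, ?_, rfl, ?_⟩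
  · intro e
    by_cases c1 : e = d
    · rw [c1, a1, a1]
    by_cases c2 : e = d'
    · rw [c2, a2, a2]
    obtain ⟨-, b2, b3, b4⟩ := a5 e c1 c2
    rw [b2, (a5 _ b3 b4).2.1, Δ.invol]
  · intro e he
    obtain ⟨c1, c2⟩ := nd e he
    rw [(a5 e c1 c2).2.1] at he ⊢
    exact Δ.hlab e he
  · intro e he
    obtain ⟨c1, c2⟩ := nd e he
    rw [(a5 e c1 c2).2.1] at he
    rw [(a5 e c1 c2).1]
    exact Δ.hstep e he
  · intro e he hs
    by_cases c1 : e = d
    · rw [c1, a3, h2]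
    by_cases c2 : e = d'
    · rw [c2, a4, h1]
    rw [(a5 e c1 c2).2.1] at he
    rw [(a5 e c1 c2).1]
    exact Δ.hdum e he hs
  · intro e
    by_cases c1 : e = d
    · rw [c1, a3, a1, Δ.hel, hd'']
    by_cases c2 : e = d'
    · rw [c2, a4, a2, Δ.hel, hd']
    rw [(a5 e c1 c2).1, (a5 e c1 c2).2.1, Δ.hel]
  · intro e he
    obtain ⟨c1, c2⟩ := nd e he
    rw [(a5 e c1 c2).2.1] at he
    rw [(a5 e c1 c2).1]
    exact Δ.hel2 e he
  · unfold Dg.mu
    refine Nat.add_lt_add_left (Finset.card_lt_card ⟨?_, ?_⟩) _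
    · intro e he
      simp only [Finset.mem_filter, Finset.mem_univ, true_and] at he ⊢
      obtain ⟨c1, c2⟩ := nd e he
      rwa [(a5 e c1 c2).2.1] at he
    · intro hc
      have := @hc d (by simpa [hd'] using hd)
      simp only [Finset.mem_filter, Finset.mem_univ, true_and] at this
      exact this a1
  · refine sum_two hd.symm ?_ ?_
    · have n : Δ.α d ≠ d := by rw [hd']; exact hd
      have := hw (Δ.el d) _ _ _ (Δ.hstep d n)
      rw [← Δ.hel2 d n, Δ.hel, h1, ← Δ.hlab d n, hd'] at this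
      simp only [a1, a2, if_true, hd', hd'', if_neg hd, if_neg hd.symm, this, add_zero]
    · intro e c1 c2
      simp only [(a5 e c1 c2).2.1]

theorem moveF (hw : ∀ g p a q, Step p a q → wt g p a + wt (g * γ a) q (linv a) = 0)
    (hγ : ∀ a, γ (linv a) = (γ a)⁻¹) (Δ : Dg Step γ x y) (d : Δ.D) {x' : W}
    (hd : Δ.α d ≠ d) (hd' : Δ.α (Δ.φ d) ≠ Δ.φ d) (hl : Δ.lab (Δ.φ d) = linv (Δ.lab d))
    (hz : (Δ.pos (Δ.φ (Δ.φ d)) = Δ.pos d ∧ x' = x) ∨
      (Δ.φ Δ.star = d ∧ x' = Δ.pos (Δ.φ (Δ.φ d)))) :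
    ∃ Δ' : Dg Step γ x' y, Δ'.mu < Δ.mu ∧ Δ'.el Δ'.star = Δ.el Δ.star ∧ Z wt Δ' = Z wt Δ := by
  obtain ⟨d', h0⟩ : ∃ d', Δ.φ d = d' := ⟨_, rfl⟩
  obtain ⟨a, h1⟩ : ∃ a, Δ.α d = a := ⟨_, rfl⟩
  obtain ⟨a', h2⟩ : ∃ a', Δ.α d' = a' := ⟨_, rfl⟩
  have h3 : Δ.α a = d := by rw [← h1, Δ.invol]
  have h4 : Δ.α a' = d' := by rw [← h2, Δ.invol]
  rw [h0] at hd' hl hz
  obtain ⟨z, hzz⟩ : ∃ z, Δ.pos (Δ.φ d') = z := ⟨_, rfl⟩
  rw [hzz] at hz
  have n1 : d ≠ d' := by rintro rfl; exact linv_ne _ hl.symm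
  have n2 : a ≠ d := h1 ▸ hd
  have n5 : a' ≠ d' := h2 ▸ hd'
  have s1 : Δ.star ≠ d := by rintro rfl; exact hd Δ.hstar
  have s2 : Δ.star ≠ d' := by rintro rfl; exact hd' Δ.hstar
  have s3 : Δ.star ≠ a := by
    rintro rfl; rw [Δ.hstar] at h3; exact s1 h3
  have s4 : Δ.star ≠ a' := by
    rintro rfl; rw [Δ.hstar] at h4; exact s2 h4
  let α' : Δ.D → Δ.D := fun e => if e = d ∨ e = d' then e else if e = a then a' else
    if e = a' then a else Δ.α e
  have a1 : α' d = d := by simp [α']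
  have a2 : α' d' = d' := by simp [α']
  have a5 : ∀ e, e ≠ d → e ≠ d' → e ≠ a → e ≠ a' →
      α' e = Δ.α e ∧ Δ.α e ≠ d ∧ Δ.α e ≠ d' ∧ Δ.α e ≠ a ∧ Δ.α e ≠ a' := by
    intro e c1 c2 c3 c4
    refine ⟨by simp [α', c1, c2, c3, c4], ?_, ?_, ?_, ?_⟩
    · intro hc; apply c3; rw [← Δ.invol e, hc, h1]
    · intro hc; apply c4; rw [← Δ.invol e, hc, h2]
    · intro hc; apply c1; rw [← Δ.invol e, hc, h3]
    · intro hc; apply c2; rw [← Δ.invol e, hc, h4]
  have naa : a ≠ a' := by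
    intro hc; apply n1; rw [← h3, hc, h4]
  have hcase : (a = d' ∧ a' = d) ∨ (a ≠ d' ∧ a' ≠ d ∧ α' a = a' ∧ α' a' = a) := by
    by_cases c : a = d'
    · left; exact ⟨c, by rw [← h2, ← c, h3]⟩
    · have c' : a' ≠ d := by intro hc; apply c; rw [← h1, ← hc, h4]
      right; exact ⟨c, c', by simp [α', n2, c], by simp [α', n5, c', naa.symm]⟩
  have hne : ∀ e, e ≠ d → Δ.φ e ≠ d' := fun e he hc => he (Δ.φ.injective (hc.trans h0.symm))
  have nd : ∀ e, α' e ≠ e → e ≠ d ∧ e ≠ d' ∧ Δ.α e ≠ e := fun e he => by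
    have c1 : e ≠ d := by rintro rfl; exact he a1
    have c2 : e ≠ d' := by rintro rfl; exact he a2
    refine ⟨c1, c2, ?_⟩
    by_cases c3 : e = a
    · rw [c3, h3]; exact n2.symm
    by_cases c4 : e = a'
    · rw [c4, h4]; exact n5.symm
    rwa [(a5 e c1 c2 c3 c4).1] at he
  let pos' : Δ.D → W := update (update Δ.pos d z) d' z
  have p1 : pos' d = z := by simp [pos', n1]
  have p2 : pos' d' = z := by simp [pos']
  have p3 : ∀ e, e ≠ d → e ≠ d' → pos' e = Δ.pos e := fun e c1 c2 => by simp [pos', c1, c2]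
  have p4 : ∀ e, e ≠ d → e ≠ Δ.star → pos' (Δ.φ e) = Δ.pos (Δ.φ e) := by
    intro e c1 c2
    by_cases c : Δ.φ e = d
    · rw [c, p1]
      rcases hz with hz | hz
      · exact hz.1
      · exact absurd (Δ.φ.injective (c.trans hz.1.symm)) c2
    · exact p3 _ c (hne _ c1)
  let el' : Δ.D → G := update Δ.el d' (Δ.el d)
  have e2 : el' d' = Δ.el d := by simp [el']
  have e3 : ∀ e, e ≠ d' → el' e = Δ.el e := fun e c => by simp [el', c]
  have e4 : Δ.el (Δ.φ d') = Δ.el d := by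
    have := Δ.hel2 d hd
    rw [h0] at this
    rw [Δ.hel2 d' hd', this, hl, hγ]; simp
  have l1 : Δ.lab a = linv (Δ.lab d) := by rw [← h1, Δ.hlab d hd]
  have l2 : Δ.lab a' = Δ.lab d := by rw [← h2, Δ.hlab d' hd', hl, linv_linv]
  refine ⟨{ D := Δ.D
            φ := Δ.φ
            α := α'
            invol := ?_
            star := Δ.star
            hstar := by rw [(a5 _ s1 s2 s3 s4).1, Δ.hstar]
            pl := ?_
            lab := Δ.lab
            pos := pos'
            el := el'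
            hlab := ?_
            hstep := ?_
            hdum := ?_
            hx := ?_
            hy := by rw [p3 _ s1 s2, Δ.hy]
            hel := ?_
            hel2 := ?_ }, ?_, e3 _ s2, ?_⟩
  · intro e
    by_cases c1 : e = d
    · rw [c1, a1, a1]
    by_cases c2 : e = d'
    · rw [c2, a2, a2]
    by_cases c3 : e = a
    · rcases hcase with h | h
      · exact absurd (c3.trans h.1) c2
      · rw [c3, h.2.2.1, h.2.2.2]
    by_cases c4 : e = a'
    · rcases hcase with h | h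
      · exact absurd (c4.trans h.2) c1
      · rw [c4, h.2.2.2, h.2.2.1]
    obtain ⟨b1, b2, b3, b4, b5⟩ := a5 e c1 c2 c3 c4
    rw [b1, (a5 _ b2 b3 b4 b5).1, Δ.invol]
  · rcases hcase with h | h
    · refine Pl_spur (h1.trans h.1) (h2.trans h.2) a1 a2 (fun e c1 c2 => ?_) Δ.pl
      exact (a5 e c1 c2 (h.1 ▸ c2) (h.2 ▸ c1)).1
    · refine Pl_F Δ.φ.injective h0 h1 h2 h3 h4 n1 n2 h.1 h.2.1 n5 a1 a2 h.2.2.1 h.2.2.2
        (fun e c1 c2 c3 c4 => ?_) Δ.pl
      obtain ⟨b1, b2, b3, -⟩ := a5 e c1 c2 c3 c4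
      exact ⟨b1, b2, b3⟩
  · intro e he
    obtain ⟨c1, c2, c5⟩ := nd e he
    by_cases c3 : e = a
    · rcases hcase with h | h
      · exact absurd (c3.trans h.1) c2
      · rw [c3, h.2.2.1, l1, l2, linv_linv]
    by_cases c4 : e = a'
    · rcases hcase with h | h
      · exact absurd (c4.trans h.2) c1
      · rw [c4, h.2.2.2, l1, l2]
    rw [(a5 e c1 c2 c3 c4).1]
    exact Δ.hlab e c5
  · intro e he
    obtain ⟨c1, c2, c5⟩ := nd e he
    rw [p3 e c1 c2, p4 e c1 (by rintro rfl; exact c5 Δ.hstar)]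
    exact Δ.hstep e c5
  · intro e he hs
    by_cases c1 : e = d
    · rw [c1, h0, p1, p2]
    by_cases c2 : e = d'
    · rw [c2, p4 _ n1.symm s2.symm, p2, hzz]
    rw [p3 e c1 c2, p4 e c1 hs]
    by_cases c3 : e = a
    · rcases hcase with h | h
      · exact absurd (c3.trans h.1) c2
      · rw [c3, h.2.2.1] at he; exact absurd he.symm naa
    by_cases c4 : e = a'
    · rcases hcase with h | h
      · exact absurd (c4.trans h.2) c1
      · rw [c4, h.2.2.2] at he; exact absurd he naa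
    rw [(a5 e c1 c2 c3 c4).1] at he
    exact Δ.hdum e he hs
  · by_cases c : Δ.φ Δ.star = d
    · rw [c, p1]
      rcases hz with hz | hz
      · rw [hz.1, hz.2, ← c, Δ.hx]
      · exact hz.2.symm
    · rw [p3 _ c (hne _ s1), Δ.hx]
      rcases hz with hz | hz
      · exact hz.2.symm
      · exact absurd hz.1 c
  · intro e
    by_cases c1 : e = d
    · rw [c1, h0, a1, e2, e3 _ n1]
    by_cases c2 : e = d'
    · rw [c2, a2, e2, e3 _ (hne _ n1.symm), e4]
    rw [e3 _ (hne _ c1)]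
    by_cases c3 : e = a
    · rcases hcase with h | h
      · exact absurd (c3.trans h.1) c2
      · rw [c3, h.2.2.1, e3 _ n5, Δ.hel, h3, ← h2, ← Δ.hel, e4]
    by_cases c4 : e = a'
    · rcases hcase with h | h
      · exact absurd (c4.trans h.2) c1
      · rw [c4, h.2.2.2, e3 _ h.1, Δ.hel, h4, ← h1, ← Δ.hel, h0]
    obtain ⟨b1, b2, b3, -⟩ := a5 e c1 c2 c3 c4
    rw [b1, e3 _ b3, Δ.hel]
  · intro e he
    obtain ⟨c1, c2, c5⟩ := nd e he
    rw [e3 _ (hne _ c1), e3 _ c2]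
    exact Δ.hel2 e c5
  · unfold Dg.mu
    refine Nat.add_lt_add_left (Finset.card_lt_card ⟨?_, ?_⟩) _
    · intro e he
      simp only [Finset.mem_filter, Finset.mem_univ, true_and] at he ⊢
      exact (nd e he).2.2
    · intro hc
      have := @hc d (by simpa using hd)
      simp only [Finset.mem_filter, Finset.mem_univ, true_and] at this
      exact this a1
  · refine sum_two n1 ?_ ?_
    · have := hw (Δ.el d) _ _ _ (Δ.hstep d hd)
      rw [← Δ.hel2 d hd, h0, ← hl] at this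
      simp only [a1, a2, if_true, if_neg hd, if_neg hd', this, add_zero]
    · intro e c1 c2
      have : α' e = e ↔ Δ.α e = e := by
        refine ⟨fun h => ?_, fun h => by_contra fun hc => (nd e hc).2.2 h⟩
        by_cases c3 : e = a
        · rcases hcase with h' | h'
          · exact absurd (c3.trans h'.1) c2
          · rw [c3, h'.2.2.1] at h; exact absurd h.symm naa
        by_cases c4 : e = a'
        · rcases hcase with h' | h'
          · exact absurd (c4.trans h'.2) c1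
          · rw [c4, h'.2.2.2] at h; exact absurd h naa
        rwa [(a5 e c1 c2 c3 c4).1] at h
      simp only [this, p3 e c1 c2, e3 e c2]

theorem exists_red' (hw : ∀ g p a q, Step p a q → wt g p a + wt (g * γ a) q (linv a) = 0)
    (hγ : ∀ a, γ (linv a) = (γ a)⁻¹) (Δ₀ : Dg Step γ x y) :
    ∃ Δ : Dg Step γ x y, Δ.Red ∧ Δ.el Δ.star = Δ₀.el Δ₀.star ∧ Z wt Δ = Z wt Δ₀ := by
  classical
  have hex : ∃ n, ∃ Δ : Dg Step γ x y,
      (Δ.el Δ.star = Δ₀.el Δ₀.star ∧ Z wt Δ = Z wt Δ₀) ∧ Δ.mu = n := ⟨_, Δ₀, ⟨rfl, rfl⟩, rfl⟩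
  obtain ⟨Δ, h0, hΔ⟩ := Nat.find_spec hex
  have hmin : ∀ Δ' : Dg Step γ x y,
      ¬ (Δ'.mu < Δ.mu ∧ Δ'.el Δ'.star = Δ.el Δ.star ∧ Z wt Δ' = Z wt Δ) := fun Δ' hc =>
    Nat.find_min hex (hΔ ▸ hc.1) ⟨Δ', ⟨hc.2.1.trans h0.1, hc.2.2.trans h0.2⟩, rfl⟩
  have nodum : ∀ d, d ≠ Δ.star → Δ.α d ≠ d := fun d hd hc => by
    obtain ⟨Δ', h'⟩ := moveK wt Δ d hc hd
    exact hmin _ h'
  refine ⟨Δ, ⟨nodum, fun d hd h1 h2 => ?_, fun d hd hd' h1 h2 => ?_⟩, h0⟩
  · obtain ⟨Δ', h'⟩ := moveE wt hw Δ d (nodum d hd) h1 h2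
    exact hmin _ h'
  · obtain ⟨Δ', h'⟩ := moveF wt hw hγ Δ d (nodum d hd) (nodum _ hd') h1 (Or.inl ⟨h2, rfl⟩)
    exact hmin _ h'

end moves

section fill
variable {S V G A : Type} [Group G] [AddCommGroup A] {Step : V → S × Bool → V → Prop}
  {γ : S × Bool → G} {wt : G → V ⊕ List (S × Bool) → S × Bool → A}

/-- fillings with given base and chain -/
def TF (Step : V → S × Bool → V → Prop) (γ : S × Bool → G)
    (wt : G → V ⊕ List (S × Bool) → S × Bool → A) (y : G) (w : List (S × Bool)) (z : A) : Prop :=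
  ∃ Δ : Dg (StepP Step) γ (.inr w) (.inr []), Δ.el Δ.star = y ∧ Z wt Δ = z

theorem tf_nil [Nonempty S] (y : G) : TF Step γ wt y [] 0 :=
  ⟨{ D := Unit
     φ := 1
     α := id
     invol := fun _ => rfl
     star := ()
     hstar := rfl
     pl := fun h _ => ⟨h, fun _ => rfl, fun _ => rfl⟩
     lab := fun _ => (Classical.arbitrary S, true)
     pos := fun _ => .inr []
     el := fun _ => y
     hlab := fun _ h => absurd rfl h
     hstep := fun _ h => absurd rfl h
     hdum := fun _ _ h => absurd rfl h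
     hx := rfl
     hy := rfl
     hel := fun _ => rfl
     hel2 := fun _ h => absurd rfl h }, rfl, by simp [Z]⟩

variable (hw : ∀ g p a q, StepP Step p a q → wt g p a + wt (g * γ a) q (linv a) = 0)
  (hw0 : ∀ g l a, wt g (.inr l) a = 0)

include hw in
theorem tf_fold (hγ : ∀ a, γ (linv a) = (γ a)⁻¹) {a : S × Bool} {w : List (S × Bool)}
    {y : G} {z : A} (h : TF Step γ wt y (a :: linv a :: w) z) : TF Step γ wt y w z := by
  obtain ⟨Δ₀, rfl, rfl⟩ := h
  obtain ⟨Δ, hΔ, k1, k2⟩ := exists_red' wt hw hγ Δ₀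
  have hx := Δ.hx
  have hy := Δ.hy
  have n1 : Δ.φ Δ.star ≠ Δ.star := by
    intro hc; rw [hc, hy] at hx; simp at hx
  have s1 := Δ.hstep _ (hΔ.nodum _ n1)
  rw [hx] at s1
  obtain ⟨l, e1, e2⟩ := s1.of_inr
  obtain ⟨e3, rfl⟩ := List.cons.inj e2
  have n2 : Δ.φ (Δ.φ Δ.star) ≠ Δ.star := by
    intro hc; rw [hc, hy] at e1; simp at e1
  have s2 := Δ.hstep _ (hΔ.nodum _ n2)
  rw [e1] at s2
  obtain ⟨l, e4, e5⟩ := s2.of_inr
  obtain ⟨e6, rfl⟩ := List.cons.inj e5
  obtain ⟨Δ', -, k3, k4⟩ := moveF wt hw hγ Δ _ (hΔ.nodum _ n1) (hΔ.nodum _ n2) (by rw [← e6, ← e3])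
    (Or.inr ⟨rfl, e4.symm⟩)
  exact ⟨Δ', k3.trans k1, k4.trans k2⟩

include hw hw0 in
theorem tf_rot1 (hγ : ∀ a, γ (linv a) = (γ a)⁻¹) {a : S × Bool} {w : List (S × Bool)}
    {y : G} {z : A} (h1 : ((a :: w).map γ).prod = 1)
    (h : TF Step γ wt y (a :: w) z) : TF Step γ wt (y * γ a) (w ++ [a]) z := by
  by_cases hw' : w = []
  · subst hw'
    have : γ a = 1 := by simpa using h1
    rw [this, mul_one]; exact h
  clear h1
  obtain ⟨Δ₀, rfl, rfl⟩ := h
  obtain ⟨Δ, hΔ, k1, k2⟩ := exists_red' wt hw hγ Δ₀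
  rw [← k1, ← k2]
  have hx := Δ.hx
  have hy := Δ.hy
  obtain ⟨e, h0⟩ : ∃ e, Δ.φ Δ.star = e := ⟨_, rfl⟩
  obtain ⟨b, h1⟩ : ∃ b, Δ.φ b = Δ.star := Δ.φ.surjective _
  rw [h0] at hx
  have n1 : e ≠ Δ.star := by
    intro hc; rw [hc, hy] at hx; simp at hx
  have s1 := Δ.hstep _ (hΔ.nodum _ n1)
  rw [hx] at s1
  obtain ⟨l, e1, e2⟩ := s1.of_inr
  obtain ⟨e3, rfl⟩ := List.cons.inj e2
  have n2 : b ≠ e := by
    rintro rfl; rw [h1, hy] at e1; exact hw' (Sum.inr.inj e1).symm
  have n3 : b ≠ Δ.star := by rintro rfl; exact n1 (h0.symm.trans h1)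
  have hne : ∀ x, x ≠ b → Δ.φ x ≠ Δ.star := fun x hx hc => hx (Δ.φ.injective (hc.trans h1.symm))
  have hne' : ∀ x, x ≠ Δ.star → Δ.φ x ≠ e := fun x hx hc =>
    hx (Δ.φ.injective (hc.trans h0.symm))
  let φ' : Perm Δ.D := swap Δ.star e * Δ.φ * swap Δ.star e
  have a2 : φ' b = e := by simp [φ', swap_apply_of_ne_of_ne n3 n2, h1]
  have a3 : φ' e = Δ.star := by simp [φ', h0]
  have a4 : φ' Δ.star = Δ.φ e := by
    simp [φ', swap_apply_of_ne_of_ne (hne _ n2.symm) (hne' _ n1)]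
  have a5 : ∀ x, x ≠ b → x ≠ e → x ≠ Δ.star → φ' x = Δ.φ x := fun x c1 c2 c3 => by
    simp [φ', swap_apply_of_ne_of_ne c3 c2, swap_apply_of_ne_of_ne (hne _ c1) (hne' _ c3)]
  let f : V ⊕ List (S × Bool) → V ⊕ List (S × Bool) := Sum.map id (· ++ [a])
  have hf : ∀ p c q, StepP Step p c q → StepP Step (f p) c (f q) := by
    rintro (p | p) c (q | q) h
    · exact h
    · exact h.elim
    · exact h.elim
    · change p = c :: q at h
      subst h; rfl
  let pos' : Δ.D → V ⊕ List (S × Bool) :=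
    update (update (fun x => f (Δ.pos x)) e (.inr [a])) Δ.star (.inr [])
  have p1 : pos' e = .inr [a] := by simp [pos', n1]
  have p2 : pos' Δ.star = .inr [] := by simp [pos']
  have p3 : ∀ x, x ≠ e → x ≠ Δ.star → pos' x = f (Δ.pos x) := fun x c1 c2 => by
    simp [pos', c1, c2]
  let el' : Δ.D → G := update Δ.el Δ.star (Δ.el (Δ.φ e))
  have q2 : el' Δ.star = Δ.el (Δ.φ e) := by simp [el']
  have q3 : ∀ x, x ≠ Δ.star → el' x = Δ.el x := fun x c => by simp [el', c]
  have q4 : Δ.el e = Δ.el Δ.star := by rw [← h0, Δ.hel, Δ.hstar]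
  have q5 : ∀ x, x ≠ Δ.star → el' (φ' x) = Δ.el (Δ.φ x) := by
    intro x c3
    by_cases c1 : x = b
    · rw [c1, a2, q3 _ n1, h1, q4]
    by_cases c2 : x = e
    · rw [c2, a3, q2]
    rw [a5 x c1 c2 c3, q3 _ (hne _ c1)]
  refine ⟨{ D := Δ.D
            φ := φ'
            α := Δ.α
            invol := Δ.invol
            star := Δ.star
            hstar := Δ.hstar
            pl := Pl_move Δ.φ.injective Δ.hstar (fun x => Δ.alpha_ne) h0 h1 n1 n2 a2 a3 a4 a5 Δ.pl
            lab := Δ.lab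
            pos := pos'
            el := el'
            hlab := Δ.hlab
            hstep := ?_
            hdum := fun d h1 h2 => absurd h1 (hΔ.nodum d h2)
            hx := ?_
            hy := p2
            hel := ?_
            hel2 := ?_ }, ?_, ?_⟩
  · intro x hx'
    have c3 : x ≠ Δ.star := by rintro rfl; exact hx' Δ.hstar
    have := hf _ _ _ (Δ.hstep x hx')
    by_cases c1 : x = b
    · subst c1
      rw [h1, hy] at this
      rw [a2, p1, p3 _ n2 n3]; exact this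
    by_cases c2 : x = e
    · rw [c2, a3, p1, p2, ← e3]; rfl
    rw [a5 x c1 c2 c3, p3 _ c2 c3, p3 _ (hne' _ c3) (hne _ c1)]
    exact this
  · rw [a4, p3 _ (hne' _ n1) (hne _ n2.symm), e1]; rfl
  · intro x
    by_cases c3 : x = Δ.star
    · rw [c3, a4, Δ.hstar, q2, q3 _ (hne _ n2.symm)]
    rw [q5 x c3, q3 _ (Δ.alpha_ne c3), Δ.hel]
  · intro x hx'
    have c3 : x ≠ Δ.star := by rintro rfl; exact hx' Δ.hstar
    rw [q5 x c3, q3 _ c3, Δ.hel2 x hx']
  · change el' Δ.star = _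
    rw [q2, Δ.hel2 e (hΔ.nodum _ n1), q4, ← e3]
  · refine Finset.sum_congr rfl fun x _ => ?_
    by_cases c3 : x = Δ.star
    · simp only [c3, Δ.hstar, if_true]
    by_cases c2 : x = e
    · simp only [c2, p1, hx, hw0]
    simp only [p3 x c2 c3, q3 x c3]
    rcases Δ.pos x with v | l
    · rfl
    · simp only [f, Sum.map_inr, hw0]

include hw hw0 in
theorem tf_rot (hγ : ∀ a, γ (linv a) = (γ a)⁻¹) {z : A} (u : List (S × Bool)) :
    ∀ v y, ((u ++ v).map γ).prod = 1 → TF Step γ wt y (u ++ v) z →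
      TF Step γ wt (y * (u.map γ).prod) (v ++ u) z := by
  induction u with
  | nil => intro v y _ h; simpa using h
  | cons a u ih =>
    intro v y h1 h
    have := tf_rot1 hw hw0 hγ (w := u ++ v) h1 (show TF Step γ wt y (a :: (u ++ v)) z from h)
    rw [List.append_assoc] at this
    have := ih _ _ (by
      simp only [List.cons_append, List.map_cons, List.prod_cons, List.map_append,
        List.prod_append, List.map_nil, List.prod_nil, mul_one] at h1 ⊢
      rw [← mul_assoc]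
      exact mul_eq_one_comm.1 h1) this
    simpa [mul_assoc] using this

include hw0 in
theorem tf_ins' (hγ : ∀ a, γ (linv a) = (γ a)⁻¹)
    (hsym : ∀ v a v', Step v a v' → Step v' (linv a) v) {k : ℕ} (ℓ : Fin (k + 1) → S × Bool)
    (P : Fin (k + 1) → V) (E : Fin (k + 1) → G) (L : Fin (k + 1) → List (S × Bool))
    {w : List (S × Bool)}
    (hP : ∀ j, Step (P j) (ℓ j) (P (j + 1))) (hE : ∀ j, E (j + 1) = E j * γ (ℓ j)) (hE0 : E 0 = 1)
    (hL : ∀ j, j ≠ Fin.last k → L j = ℓ j :: L (j + 1)) (hL' : L (Fin.last k) = ℓ (Fin.last k) :: w)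
    {y : G} {z : A} (h : TF Step γ wt y w z) :
    TF Step γ wt y (L 0) (z + ∑ j, wt (y * E (j + 1)) (.inl (P (j + 1))) (linv (ℓ j))) := by
  obtain ⟨Δ, rfl, rfl⟩ := h
  let φ₂ : Perm (Fin (k + 1) × Bool) :=
    { toFun := fun x => if x.2 then (x.1 + 1, true) else (x.1 - 1, false)
      invFun := fun x => if x.2 then (x.1 - 1, true) else (x.1 + 1, false)
      left_inv := by rintro ⟨j, b⟩; cases b <;> simp
      right_inv := by rintro ⟨j, b⟩; cases b <;> simp }
  have f1 : ∀ j, φ₂ (j, true) = (j + 1, true) := fun j => rfl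
  have f2 : ∀ j, φ₂ (j, false) = (j - 1, false) := fun j => rfl
  let α₂ : Fin (k + 1) × Bool → Fin (k + 1) × Bool := fun x => (x.1, !x.2)
  have i2 : Involutive α₂ := by rintro ⟨j, b⟩; simp [α₂]
  have H₂ : Pl φ₂ α₂ := by
    intro h hh
    refine ⟨fun x => if x.2 then h x else h (x.1 + 1, true), ?_, ?_⟩
    · rintro ⟨j, b⟩; cases b <;> simp [f1, f2, α₂]
    · rintro ⟨j, b⟩
      have := hh (j, true)
      cases b <;> simp [f1, f2, α₂] at this ⊢
      linarith
  let b₀ : Fin (k + 1) × Bool := (Fin.last k, true)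
  let φ' : Perm (Δ.D ⊕ (Fin (k + 1) × Bool)) :=
    Equiv.sumCongr Δ.φ φ₂ * Equiv.swap (Sum.inl Δ.star) (Sum.inr b₀)
  let α' : Δ.D ⊕ (Fin (k + 1) × Bool) → Δ.D ⊕ (Fin (k + 1) × Bool) := Sum.map Δ.α α₂
  have h3 : φ' (.inl Δ.star) = .inr (φ₂ b₀) := by simp [φ']
  have h4 : φ' (.inr b₀) = .inl (Δ.φ Δ.star) := by simp [φ']
  have h5 : ∀ x, x ≠ Δ.star → φ' (.inl x) = .inl (Δ.φ x) := fun x hx => by
    simp [φ', swap_apply_def, hx]
  have h6 : ∀ x, x ≠ b₀ → φ' (.inr x) = .inr (φ₂ x) := fun x hx => by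
    simp [φ', swap_apply_def, hx]
  have h7 : φ₂ b₀ = (0, true) := by simp [b₀, f1]
  have g0 : Δ.el (Δ.φ Δ.star) = Δ.el Δ.star := by rw [Δ.hel, Δ.hstar]
  let el' : Δ.D ⊕ (Fin (k + 1) × Bool) → G :=
    Sum.elim Δ.el (fun x => Δ.el Δ.star * if x.2 then E x.1 else E (x.1 + 1))
  have m1 : ∀ x, el' (φ' (.inl x)) = Δ.el (Δ.φ x) := by
    intro x
    by_cases c : x = Δ.star
    · rw [c, h3, h7, g0]; simp [el', hE0]
    · rw [h5 x c]; rfl
  have m2 : ∀ x, el' (φ' (.inr x)) = el' (.inr (φ₂ x)) := by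
    intro x
    by_cases c : x = b₀
    · rw [c, h4, h7]; simp [el', hE0, g0]
    · rw [h6 x c]
  have nd : ∀ x, α' (.inl x) ≠ .inl x → Δ.α x ≠ x := fun x h hc => h (by simp [α', hc])
  refine ⟨{ D := Δ.D ⊕ (Fin (k + 1) × Bool)
            φ := φ'
            α := α'
            invol := ?_
            star := .inl Δ.star
            hstar := by simp [α', Δ.hstar]
            pl := Pl_join φ₂.bijective i2.bijective Δ.hstar (fun _ => rfl) (fun _ => rfl)
              h3 h4 h5 h6 Δ.pl H₂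
            lab := Sum.elim Δ.lab (fun x => if x.2 then ℓ x.1 else linv (ℓ x.1))
            pos := Sum.elim Δ.pos (fun x => if x.2 then .inr (L x.1) else .inl (P (x.1 + 1)))
            el := el'
            hlab := ?_
            hstep := ?_
            hdum := ?_
            hx := by rw [h3, h7]; rfl
            hy := Δ.hy
            hel := ?_
            hel2 := ?_ }, rfl, ?_⟩
  · rintro (x | x)
    · simp [α', Δ.invol x]
    · simp [α', i2 x]
  · rintro (x | ⟨j, b⟩) hx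
    · exact Δ.hlab x (nd x hx)
    · cases b <;> simp [α', α₂]
  · rintro (x | ⟨j, b⟩) hx
    · rw [h5 x (by rintro rfl; exact nd _ hx Δ.hstar)]
      exact Δ.hstep x (nd x hx)
    · cases b
      · rw [h6 _ (by simp [b₀]), f2]
        simpa [StepP] using hsym _ _ _ (hP j)
      · by_cases c : j = Fin.last k
        · subst c
          rw [h4]
          simp only [Sum.elim_inr, Sum.elim_inl, if_true, Δ.hx]
          exact hL'
        · rw [h6 _ (by simpa [b₀] using c), f1]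
          exact hL j c
  · rintro (x | ⟨j, b⟩) hx hs
    · have c : x ≠ Δ.star := fun hc => hs (by rw [hc])
      rw [h5 x c]
      exact Δ.hdum x (Sum.inl.inj hx) c
    · cases b <;> simp [α', α₂] at hx
  · rintro (x | ⟨j, b⟩)
    · rw [m1, Δ.hel]; rfl
    · rw [m2]
      cases b <;> simp [α', α₂, f1, f2, el']
  · rintro (x | ⟨j, b⟩) hx
    · rw [m1, Δ.hel2 x (nd x hx)]; rfl
    · rw [m2]
      cases b
      · simp only [f2, el', Sum.elim_inr, Bool.false_eq_true, if_false, sub_add_cancel]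
        rw [hE, hγ]; simp [mul_assoc]
      · simp [f1, el', hE, mul_assoc]
  · unfold Z
    rw [Fintype.sum_sum_type, Fintype.sum_prod_type]
    congr 1
    · refine Finset.sum_congr rfl fun x _ => ?_
      simp [α', el']
    · refine Finset.sum_congr rfl fun j _ => ?_
      simp [α', α₂, el', hw0]

/-- path sums -/
def PS (ω : G → S × Bool → ℤ) (γ : S × Bool → G) : G → List (S × Bool) → ℤ
  | _, [] => 0
  | y, a :: l => ω y a + PS ω γ (y * γ a) l

theorem PS_append (ω : G → S × Bool → ℤ) (u v : List (S × Bool)) :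
    ∀ y, PS ω γ y (u ++ v) = PS ω γ y u + PS ω γ (y * (u.map γ).prod) v := by
  induction u with
  | nil => intro y; simp [PS]
  | cons a u ih => intro y; simp [PS, ih, add_assoc, mul_assoc]

theorem PS_sum (ω : G → S × Bool → ℤ) (r : List (S × Bool)) : ∀ (y : G) (n : ℕ)
    (h : r.length = n), ∑ j : Fin n, ω (y * ((r.take j.1).map γ).prod) (r[j.1]'(h ▸ j.2)) =
      PS ω γ y r := by
  induction r with
  | nil => rintro y n rfl; simp [PS]
  | cons a r ih =>
    rintro y n rfl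
    rw [PS, ← ih _ _ rfl]
    refine (Fin.sum_univ_succ _).trans ?_
    simp [mul_assoc]

include hw hw0 in
theorem tf_ins (hγ : ∀ a, γ (linv a) = (γ a)⁻¹)
    (hsym : ∀ v a v', Step v a v' → Step v' (linv a) v) {v : V} {r w : List (S × Bool)}
    (hr : Wk Step v r v) (h1 : (r.map γ).prod = 1) (f : V → G)
    (hf : ∀ v a v', Step v a v' → f v' = f v * γ a) (μ : G → ℤ →+ A) (ω : G → S × Bool → ℤ)
    (hwt : ∀ g v a, wt g (.inl v) a = μ (g * (f v)⁻¹) (ω g a)) {y : G} {z : A}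
    (h : TF Step γ wt y w z) :
    TF Step γ wt y (r ++ w) (z - μ (y * (f v)⁻¹) (PS ω γ y r)) := by
  by_cases h0 : r = []
  · subst h0; simpa [PS] using h
  obtain ⟨k, hk⟩ : ∃ k, r.length = k + 1 :=
    Nat.exists_eq_succ_of_ne_zero (by simpa using h0)
  obtain ⟨p, p0, p1, p2⟩ := hr.exists_fun
  have lt : ∀ j : Fin (k + 1), j.1 < r.length := fun j => by rw [hk]; exact j.2
  have e0 : ∀ j (hj : j < r.length),
      ((r.take (j + 1)).map γ).prod = ((r.take j).map γ).prod * γ r[j] := by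
    intro j hj
    rw [List.take_succ_eq_append_getElem hj, List.map_append, List.prod_append]; simp
  have hP : ∀ j : Fin (k + 1), Step (p j.1) (r[j.1]'(lt j)) (p (j + 1 : Fin (k + 1)).1) := by
    intro j
    have := p2 j.1 (lt j)
    rw [Fin.val_add_one]
    split_ifs with c
    · subst c
      have e : p ((Fin.last k).1 + 1) = p 0 := by rw [Fin.val_last, ← hk, p1, p0]
      rw [e] at this
      exact this
    · exact this
  have hE : ∀ j : Fin (k + 1), ((r.take (j + 1 : Fin (k + 1)).1).map γ).prod =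
      ((r.take j.1).map γ).prod * γ (r[j.1]'(lt j)) := by
    intro j
    have e := e0 j.1 (lt j)
    rw [Fin.val_add_one]
    split_ifs with c
    · rw [← e, c, Fin.val_last, ← hk, List.take_length, h1]; simp
    · exact e
  have hfp : ∀ j, j ≤ r.length → f (p j) = f v * ((r.take j).map γ).prod := by
    intro j
    induction j with
    | zero => intro _; simp [p0]
    | succ j ih => intro hj; rw [hf _ _ _ (p2 j hj), ih (by omega), e0 j hj, mul_assoc]
  have := tf_ins' hw0 hγ hsym (k := k) (fun j => r[j.1]'(lt j)) (fun j => p j.1)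
    (fun j => ((r.take j.1).map γ).prod) (fun j => r.drop j.1 ++ w) (w := w) hP hE (by simp)
    ?_ ?_ h
  · have e : ∑ j : Fin (k + 1), wt (y * ((r.take (j + 1 : Fin (k + 1)).1).map γ).prod)
        (.inl (p (j + 1 : Fin (k + 1)).1)) (linv (r[j.1]'(lt j))) =
        - μ (y * (f v)⁻¹) (PS ω γ y r) := by
      rw [← PS_sum ω r y _ hk, map_sum, ← Finset.sum_neg_distrib]
      refine Finset.sum_congr rfl fun j _ => ?_
      have := hw (y * ((r.take j.1).map γ).prod) (.inl _) _ (.inl _) (hP j)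
      rw [hE, ← mul_assoc, eq_neg_of_add_eq_zero_right this, hwt, hfp _ (lt j).le]
      simp [mul_assoc]
    rw [e] at this
    simpa [sub_eq_add_neg] using this
  · intro j c
    rw [Fin.val_add_one, if_neg c, List.drop_eq_getElem_cons (lt j)]; rfl
  · have e : r.drop ((Fin.last k).1 + 1) = [] := by rw [Fin.val_last, ← hk, List.drop_length]
    rw [List.drop_eq_getElem_cons (lt _), e]; rfl

end fill

end Vale.Agent.P201
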