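import Vale.Agent.P194.SC

/-! Planar maps are hyperfinite. -/

namespace Vale.Agent.P201

open Equiv Function Vale.Agent.P194

theorem Pl_sub {D : Type} {φ α α' : D → D} (R : D → Prop) (hR : ∀ x, R (α x) ↔ R x)
    (h1 : ∀ x, R x → α' x = α x) (h2 : ∀ x, ¬ R x → α' x = x) (H : Pl φ α) : Pl φ α' := by
  intro h hh
  have z : ∀ x, ¬ R x → h (φ x) = h x := fun x hx => by
    have := hh x
    rw [h2 x hx] at this
    linarith
  obtain ⟨B, hB1, hB2⟩ := H h (by
    intro x
    by_cases c : R x
    · have := hh x
      rwa [h1 x c] at this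
    · rw [z x c, z (α x) (by rwa [hR])]; ring)
  refine ⟨B, fun x => ?_, hB2⟩
  by_cases c : R x
  · rw [h1 x c, hB1]
  · rw [h2 x c]
    have := hB2 x
    rw [z x c] at this
    linarith

theorem sparse0 {C : Type} [DecidableEq C] (𝒮 : Finset C) (n : ℕ) :
    ∀ (D : Type) [Fintype D] [DecidableEq D] (φ : Perm D) (α : D → D) (cl : D → C),
      Fintype.card D = n → Involutive α → Pl φ α → (∀ x, cl (φ x) = cl x) →
      (∀ h : D → ℚ, (∀ x, h (φ x) = h x) → ∀ x y, cl x = cl y → h x = h y) →
      (∀ x, α x ≠ x → cl x ∈ 𝒮 ∧ cl (α x) ≠ cl x) →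
      (∀ x y, α x ≠ x → α y ≠ y → cl x = cl y → cl (α x) = cl (α y) → x = y) →
      (Finset.univ.filter fun x => α x ≠ x).card ≤ 7 * 𝒮.card := by
  induction n with
  | zero =>
    intro D _ _ φ α cl hn _ _ _ _ _ _
    exact ((Finset.card_filter_le _ _).trans (by simp [hn])).trans (Nat.zero_le _)
  | succ n ih =>
    intro D _ _ φ α cl hn hα H h1 h2 h3 h4
    by_cases c : ∃ d, α d = d
    · obtain ⟨d, hd⟩ := c
      have hα' : ∀ e, e ≠ d → α e ≠ d := fun e he hc => he (by rw [← hα e, hc, hd])
      let ψ : Perm D := φ * swap (φ⁻¹ d) d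
      have hψd : ψ d = d := by simp [ψ]
      have hψ : ∀ e, e ≠ d → ψ e = if φ e = d then φ d else φ e := by
        intro e he
        by_cases c : φ e = d
        · have : e = φ⁻¹ d := by rw [← c]; simp
          rw [if_pos c, this]; simp [ψ]
        · have : e ≠ φ⁻¹ d := by rintro rfl; exact c (by simp)
          rw [if_neg c]
          change φ (swap (φ⁻¹ d) d e) = _
          rw [swap_apply_of_ne_of_ne this he]
      have hsub : ∀ e, ψ e ≠ d ↔ e ≠ d := fun e => by
        rw [not_iff_not]
        constructor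
        · intro h; exact ψ.injective (h.trans hψd.symm)
        · rintro rfl; exact hψd
      let φ' : Perm {e // e ≠ d} := ψ.subtypePerm hsub
      have hφ' : ∀ e, (φ' e).1 = if φ e.1 = d then φ d else φ e.1 := fun e => hψ e.1 e.2
      have := ih {e // e ≠ d} φ' (fun e => ⟨α e.1, hα' _ e.2⟩) (fun e => cl e.1)
        (by simp [Fintype.card_subtype_compl, hn]) (fun e => Subtype.ext (hα e.1))
        (Pl_K hd (fun _ => rfl) hφ' H) (by
          intro x
          rw [hφ']
          split_ifs with c
          · rw [h1, ← h1 x.1, c]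
          · exact h1 _) (by
          intro h hh x y hxy
          let g : D → ℚ := fun e => if he : e = d then 0 else h ⟨e, he⟩
          have g1 : ∀ e : {e // e ≠ d}, g e.1 = h e := fun e => by simp [g, e.2]
          let h₁ : D → ℚ := update g d (g (φ d))
          have u0 : h₁ d = g (φ d) := by simp [h₁]
          have u1 : ∀ x, x ≠ d → h₁ x = g x := fun x hx => by simp [h₁, hx]
          have := h2 h₁ (by
            intro z
            by_cases c1 : z = d
            · subst c1
              by_cases c : φ z = z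
              · rw [c]
              · rw [u0, u1 _ c]
            · have e := hh ⟨z, c1⟩
              rw [← g1, ← g1, hφ'] at e
              rw [u1 _ c1, ← e]
              split_ifs with c
              · rw [c, u0]
              · exact u1 _ c) x.1 y.1 hxy
          rwa [u1 _ x.2, u1 _ y.2, g1, g1] at this)
        (fun x hx => h3 x.1 (fun hc => hx (Subtype.ext hc)))
        (fun x y hx hy e1 e2 => Subtype.ext (h4 x.1 y.1 (fun hc => hx (Subtype.ext hc))
          (fun hc => hy (Subtype.ext hc)) e1 e2))
      refine le_trans ?_ this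
      refine Finset.card_le_card_of_surjOn Subtype.val ?_
      intro x hx
      simp only [Finset.coe_filter, Finset.mem_univ, true_and, Set.mem_ofPred_eq] at hx
      refine ⟨⟨x, by rintro rfl; exact hx hd⟩, ?_, rfl⟩
      simp only [Finset.coe_filter, Finset.mem_univ, true_and, Set.mem_ofPred_eq]
      exact fun hc => hx (congrArg Subtype.val hc)
    push Not at c
    haveI : Nonempty D := Fintype.card_pos_iff.1 (by omega)
    have e := euler φ.bijective hα H
    let σ : Perm D := φ * hα.toPerm
    have w1 := weight σ (fun x => 2 + if φ x = x then 1 else 0) 6 (by norm_num) (by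
      intro d
      have hn : ∀ e ∈ orb σ d, (0 : ℚ) ≤ 2 + if φ e = e then 1 else 0 := by
        intro e _; split_ifs <;> norm_num
      have m0 := self_mem_orb σ d
      have m1 := (apply_mem_orb σ).2 m0
      have m2 := (apply_mem_orb σ).2 m1
      have b1 : ∀ x, x ≠ σ x := fun x hc => (h3 x (c x)).2 (by
        rw [← h1 (α x)]; exact congrArg cl hc.symm)
      by_cases b2 : σ (σ d) = d
      · have a1 : cl (σ d) = cl (α d) := h1 _
        have a2 : cl (α (σ d)) = cl (α (α d)) := by
          rw [hα, ← h1 (α (σ d))]; exact congrArg cl b2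
        have a3 : σ d = α d := h4 _ _ (c _) (c _) a1 a2
        refine le_trans ?_ (orb_ge2 _ hn m0 m1 (b1 d))
        have a4 : φ (σ d) = σ d := by rw [a3]; exact a3
        have a5 : φ d = d := by
          rw [a3] at b2
          change φ (α (α d)) = d at b2
          rwa [hα] at b2
        rw [if_pos a4, if_pos a5]; norm_num
      · refine le_trans ?_ (orb_ge3 _ hn m0 m1 m2 (b1 d) (Ne.symm b2) (b1 _))
        split_ifs <;> norm_num)
    have w3 := weight hα.toPerm (fun _ => 1) 2 (by norm_num) (by
      intro d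
      refine le_trans ?_ (orb_ge2 _ (fun _ _ => zero_le_one) (self_mem_orb _ d)
        ((apply_mem_orb _).2 (self_mem_orb _ d)) (c d).symm)
      norm_num)
    have w2 : Module.finrank ℚ (P194.Inv φ) ≤ 𝒮.card := by
      let rep : 𝒮 → D := fun s => if h : ∃ x, cl x = s.1 then h.choose else Classical.arbitrary D
      let L : P194.Inv φ →ₗ[ℚ] (𝒮 → ℚ) :=
        { toFun := fun h s => h.1 (rep s)
          map_add' := fun a b => rfl
          map_smul' := fun c a => rfl }
      have hL : Injective L := by
        intro a b hab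
        ext x
        have hx : ∃ y, cl y = cl x := ⟨x, rfl⟩
        have e1 : cl (rep ⟨cl x, (h3 x (c x)).1⟩) = cl x := by
          simp only [rep, dif_pos hx]; exact hx.choose_spec
        rw [← h2 a.1 a.2 _ _ e1, ← h2 b.1 b.2 _ _ e1]
        exact congrFun hab _
      simpa using LinearMap.finrank_le_finrank_of_injective hL
    have w4 : (Finset.univ.filter fun x => φ x = x).card ≤ 𝒮.card := by
      refine Finset.card_le_card_of_injOn cl (fun x _ => (h3 x (c x)).1) ?_
      intro x hx y _ hxy
      simp only [Finset.coe_filter, Finset.mem_univ, true_and, Set.mem_ofPred_eq] at hx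
      have := h2 (fun z => if z = x then 1 else 0) (fun z => by
        have : φ z = x ↔ z = x := ⟨fun h => φ.injective (h.trans hx.symm), fun h => h ▸ hx⟩
        simp only [this]) x y hxy
      by_contra hc
      simp [Ne.symm hc] at this
    rw [Finset.sum_add_distrib, Finset.sum_boole] at w1
    simp only [Finset.sum_const, Finset.card_univ, nsmul_eq_mul, mul_one] at w1 w3
    have e' : (Fintype.card D : ℚ) + 2 ≤ Module.finrank ℚ (P194.Inv φ) +
        Module.finrank ℚ (P194.Inv σ) + Module.finrank ℚ (P194.Inv hα.toPerm) := by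
      exact_mod_cast e
    have w2' : (Module.finrank ℚ (P194.Inv φ) : ℚ) ≤ 𝒮.card := by exact_mod_cast w2
    have w4' : ((Finset.univ.filter fun x => φ x = x).card : ℚ) ≤ 𝒮.card := by exact_mod_cast w4
    have : (Fintype.card D : ℚ) ≤ 7 * 𝒮.card := by linarith
    exact (Finset.card_filter_le _ _).trans (by exact_mod_cast this)

/-- a clustering realised as the faces of a planar map -/
def St {D C : Type} (α : D → D) (cl : D → C) : Prop :=
  ∃ (φ₁ : Perm D) (α₁ : D → D), Involutive α₁ ∧ Pl φ₁ α₁ ∧ (∀ x, cl (φ₁ x) = cl x) ∧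
    (∀ h : D → ℚ, (∀ x, h (φ₁ x) = h x) → ∀ x y, cl x = cl y → h x = h y) ∧
    ∀ x, cl (α x) ≠ cl x → α₁ x = α x

variable {D C : Type} [Fintype D] [DecidableEq D] [DecidableEq C] {α : D → D} {cl : D → C}

theorem St.merge (hα : Involutive α) (H : St α cl) (d : D) (hd : cl (α d) ≠ cl d) :
    St α (fun x => if cl x = cl d then cl (α d) else cl x) := by
  obtain ⟨φ, β, b1, b2, b3, b4, b5⟩ := H
  obtain ⟨d', hd'⟩ : ∃ d', α d = d' := ⟨_, rfl⟩
  have hd'' : α d' = d := by rw [← hd', hα]
  have e1 : β d = d' := by rw [b5 d hd, hd']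
  have e2 : β d' = d := by rw [← e1, b1]
  rw [hd'] at hd ⊢
  have ne : d ≠ d' := by rintro rfl; exact hd rfl
  let α' : D → D := fun e => if e = d ∨ e = d' then e else β e
  let φ' : Perm D := φ * swap d d'
  have a1 : α' d = d := by simp [α']
  have a2 : α' d' = d' := by simp [α']
  have a3 : φ' d = φ d' := by simp [φ']
  have a4 : φ' d' = φ d := by simp [φ']
  have a5 : ∀ e, e ≠ d → e ≠ d' → φ' e = φ e ∧ α' e = β e ∧ β e ≠ d ∧ β e ≠ d' := by
    intro e c1 c2
    refine ⟨by simp [φ', swap_apply_of_ne_of_ne c1 c2], by simp [α', c1, c2], ?_, ?_⟩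
    · intro hc; apply c2; rw [← b1 e, hc, e1]
    · intro hc; apply c1; rw [← b1 e, hc, e2]
  refine ⟨φ', α', ?_, Pl_E e1 e2 a3 a4 a1 a2 a5 b2, ?_, ?_, ?_⟩
  · intro e
    by_cases c1 : e = d
    · rw [c1, a1, a1]
    by_cases c2 : e = d'
    · rw [c2, a2, a2]
    obtain ⟨-, c3, c4, c5⟩ := a5 e c1 c2
    rw [c3, (a5 _ c4 c5).2.1, b1]
  · intro e
    by_cases c1 : e = d
    · simp only [c1, a3, b3, hd, if_false, if_true]
    by_cases c2 : e = d'
    · simp only [c2, a4, b3, hd, if_false, if_true]
    simp only [(a5 e c1 c2).1, b3]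
  · intro h hh
    have s1 : ∑ x ∈ Finset.univ.filter (fun x => cl x = cl d), (h (φ x) - h x) = 0 := by
      rw [Finset.sum_sub_distrib, sub_eq_zero]
      exact Finset.sum_equiv φ (fun x => by simp [b3]) (fun _ _ => rfl)
    rw [Finset.sum_eq_single d] at s1
    · have k1 : h d' = h d := by rw [← hh d', a4]; linarith
      have k2 : ∀ x, h (φ x) = h x := by
        intro x
        by_cases c1 : x = d
        · rw [c1]; linarith
        by_cases c2 : x = d'
        · rw [c2, ← a3, hh, k1]
        rw [← (a5 x c1 c2).1, hh]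
      have k3 := b4 h k2
      intro x y hxy
      dsimp only at hxy
      split_ifs at hxy with c1 c2 c2
      · exact k3 _ _ (c1.trans c2.symm)
      · rw [k3 _ _ c1, ← k1, k3 _ _ hxy]
      · rw [k3 _ _ c2, ← k1, k3 _ _ hxy]
      · exact k3 _ _ hxy
    · intro x hx c1
      have c2 : x ≠ d' := by
        rintro rfl; exact hd (Finset.mem_filter.1 hx).2
      rw [← (a5 x c1 c2).1, hh, sub_self]
    · simp
  · intro x hx
    have c1 : x ≠ d := by rintro rfl; simp [hd', hd] at hx
    have c2 : x ≠ d' := by rintro rfl; simp [hd'', hd] at hx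
    rw [(a5 x c1 c2).2.1]
    exact b5 x fun hc => hx (by simp only [hc])

theorem St.merges (hα : Involutive α) (H : St α cl) (μ : C → C) (hμ : ∀ c, μ (μ c) = μ c)
    (hμ' : ∀ c, μ c ≠ c → ∃ x, cl x = c ∧ cl (α x) = μ c) : St α (fun x => μ (cl x)) := by
  have key : ∀ U : Finset C, St α (fun x => if cl x ∈ U then μ (cl x) else cl x) := by
    intro U
    induction U using Finset.induction_on with
    | empty => simpa using H
    | insert c U hc ih =>
      by_cases e : μ c = c
      · have : (fun x => if cl x ∈ insert c U then μ (cl x) else cl x) =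
            fun x => if cl x ∈ U then μ (cl x) else cl x := by
          ext x
          by_cases e' : cl x = c
          · simp [e', e]
          · simp [e']
        rwa [this]
      obtain ⟨d, d1, d2⟩ := hμ' c e
      have := ih.merge hα d (by simp [d1, d2, hc, hμ, e])
      have e2 : (fun x => if cl x ∈ insert c U then μ (cl x) else cl x) =
          fun x => if (if cl x ∈ U then μ (cl x) else cl x) = (if cl d ∈ U then μ (cl d) else cl d)
            then (if cl (α d) ∈ U then μ (cl (α d)) else cl (α d))
            else (if cl x ∈ U then μ (cl x) else cl x) := by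
        ext x
        simp only [d1, d2, hc, if_false, hμ, ite_self, Finset.mem_insert]
        by_cases e' : cl x = c
        · simp [e', hc]
        · by_cases e'' : cl x ∈ U
          · have : μ (cl x) ≠ c := fun h => e (by rw [← h, hμ])
            simp [e'', this]
          · simp [e', e'']
      rwa [e2]
  have := key (Finset.univ.image cl)
  simpa using this

theorem St.sparse (hα : Involutive α) (H : St α cl) (𝒮 : Finset C) (hne : 𝒮.Nonempty) :
    ∃ c ∈ 𝒮, (𝒮.filter fun c' => c' ≠ c ∧ ∃ x, cl x = c ∧ cl (α x) = c').card ≤ 7 := by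
  classical
  obtain ⟨φ, β, b1, b2, b3, b4, b5⟩ := H
  let key : D → Sym2 C := fun x => s(cl x, cl (α x))
  have k1 : ∀ x, key (α x) = key x := fun x => by simp only [key, hα x, Sym2.eq_swap]
  let rep : D → D := fun x => (⟨x, rfl⟩ : ∃ y, key y = key x).choose
  have r1 : ∀ x, key (rep x) = key x := fun x => (⟨x, rfl⟩ : ∃ y, key y = key x).choose_spec
  have r2 : ∀ x y, key x = key y → rep x = rep y := fun x y h => by simp only [rep, h]
  let R : D → Prop := fun x => (cl x ∈ 𝒮 ∧ cl (α x) ∈ 𝒮 ∧ cl (α x) ≠ cl x) ∧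
    (x = rep x ∨ α x = rep x)
  have R1 : ∀ x, R x → R (α x) := by
    rintro x ⟨⟨a1, a2, a3⟩, a4⟩
    refine ⟨⟨a2, by rwa [hα], by rw [hα]; exact a3.symm⟩, ?_⟩
    rw [hα, r2 _ _ (k1 x)]; exact a4.symm
  have R2 : ∀ x, R x → β x = α x := fun x hx => b5 x hx.1.2.2
  have R3 : ∀ x, R (β x) ↔ R x := fun x =>
    ⟨fun h => by have := R1 _ h; rwa [← R2 _ h, b1] at this, fun h => by rw [R2 x h]; exact R1 x h⟩
  let α' : D → D := fun x => if R x then α x else x
  have a1 : ∀ x, R x → α' x = α x := fun x h => if_pos h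
  have a2 : ∀ x, ¬ R x → α' x = x := fun x h => if_neg h
  have a3 : ∀ x, α' x ≠ x → R x := fun x h => by_contra fun hc => h (a2 x hc)
  have := sparse0 𝒮 _ D φ α' cl rfl (by
      intro x
      by_cases c : R x
      · rw [a1 x c, a1 _ (R1 x c), hα]
      · rw [a2 x c, a2 x c])
    (Pl_sub R R3 (fun x h => (a1 x h).trans (R2 x h).symm) a2 b2) b3 b4
    (fun x h => by rw [a1 x (a3 x h)]; exact ⟨(a3 x h).1.1, (a3 x h).1.2.2⟩) (by
      intro x y hx hy e1 e2
      have rx := a3 x hx
      have ry := a3 y hy
      rw [a1 x rx, a1 y ry] at e2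
      have e3 : rep x = rep y := r2 _ _ (by simp only [key, e1, e2])
      rcases rx.2 with c1 | c1 <;> rcases ry.2 with c2 | c2
      · rw [c1, c2, e3]
      · exact absurd (by rw [c2, ← e3, ← c1, e1]) ry.1.2.2
      · exact absurd (by rw [c1, e3, ← c2, e1]) rx.1.2.2
      · exact hα.injective (by rw [c1, c2, e3]))
  by_contra hc
  push Not at hc
  have s1 : ∑ c ∈ 𝒮, (𝒮.filter fun c' => c' ≠ c ∧ ∃ x, cl x = c ∧ cl (α x) = c').card ≤
      (Finset.univ.filter fun x => α' x ≠ x).card := by
    rw [← Finset.card_sigma]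
    refine Finset.card_le_card_of_surjOn (fun x => ⟨cl x, cl (α x)⟩) ?_
    rintro ⟨c, c'⟩ h
    simp only [Finset.coe_sigma, Set.mem_sigma_iff, Finset.mem_coe, Finset.mem_filter] at h
    obtain ⟨m1, m2, m3, x, rfl, rfl⟩ := h
    have q : ∀ y, R y → y ∈ (↑(Finset.univ.filter fun x => α' x ≠ x) : Set D) := fun y hy => by
      simp only [Finset.coe_filter, Finset.mem_univ, true_and, Set.mem_ofPred_eq]
      rw [a1 y hy]; intro h; exact hy.1.2.2 (by rw [h])
    have := r1 x
    simp only [key, Sym2.eq_iff] at this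
    have rr : rep (rep x) = rep x := r2 _ _ (r1 x)
    rcases this with ⟨e1, e2⟩ | ⟨e1, e2⟩
    · exact ⟨rep x, q _ ⟨by rw [e1, e2]; exact ⟨m1, m2, m3⟩, .inl rr.symm⟩, by simp only [e1, e2]⟩
    · refine ⟨α (rep x), q _ (R1 _ ⟨by rw [e1, e2]; exact ⟨m2, m1, m3.symm⟩, .inl rr.symm⟩), ?_⟩
      simp only [hα (rep x), e1, e2]
  have s2 := Finset.card_nsmul_le_sum 𝒮 _ 8 hc
  have := hne.card_pos
  simp only [smul_eq_mul] at s2
  omega

theorem exists_rank (A : C → C → Prop) [DecidableRel A]
    (h : ∀ 𝒮 : Finset C, 𝒮.Nonempty → ∃ c ∈ 𝒮, (𝒮.filter (A c)).card ≤ 7) (𝒮 : Finset C) :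
    ∃ ρ : C → ℕ, Set.InjOn ρ 𝒮 ∧ ∀ c ∈ 𝒮, (𝒮.filter fun c' => A c c' ∧ ρ c < ρ c').card ≤ 7 := by
  induction 𝒮 using Finset.strongInduction with
  | H 𝒮 ih =>
    rcases 𝒮.eq_empty_or_nonempty with rfl | hne
    · exact ⟨fun _ => 0, by simp, by simp⟩
    obtain ⟨c₀, m, hc⟩ := h 𝒮 hne
    obtain ⟨ρ, r1, r2⟩ := ih (𝒮.erase c₀) (Finset.erase_ssubset m)
    refine ⟨fun c => if c = c₀ then 0 else ρ c + 1, fun a ha b hb hab => ?_, fun c hc' => ?_⟩
    · dsimp only at hab
      split_ifs at hab with c1 c2 c2
      · rw [c1, c2]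
      · exact r1 (by simpa [c1] using ha) (by simpa [c2] using hb) (by omega)
    · by_cases e : c = c₀
      · subst e
        exact (Finset.card_le_card (Finset.monotone_filter_right _ fun _ _ h => h.1)).trans hc
      · refine (Finset.card_le_card ?_).trans (r2 c (by simp [e, hc']))
        intro x hx
        simp only [Finset.mem_filter, if_neg e, Finset.mem_erase] at hx ⊢
        by_cases e' : x = c₀
        · simp [e'] at hx
        · simp only [if_neg e'] at hx
          exact ⟨⟨e', hx.1⟩, hx.2.1, by omega⟩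

theorem exists_col [Fintype C] (o : C → C) (ρ : C → ℕ) (h : ∀ c, o c ≠ c → ρ c < ρ (o c)) :
    ∃ col : C → Bool, ∀ c, o c ≠ c → col (o c) ≠ col c := by
  classical
  obtain ⟨B, hB⟩ := (Set.finite_range ρ).bddAbove
  have ex : ∀ c, ∃ n, o (o^[n] c) = o^[n] c := by
    suffices ∀ k c, B - ρ c = k → ∃ n, o (o^[n] c) = o^[n] c from fun c => this _ c rfl
    intro k
    induction k using Nat.strong_induction_on with
    | _ k ih =>
      intro c hk
      by_cases e : o c = c
      · exact ⟨0, e⟩
      · have := h c e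
        have : ρ (o c) ≤ B := hB ⟨_, rfl⟩
        obtain ⟨n, hn⟩ := ih _ (by omega) (o c) rfl
        exact ⟨n + 1, hn⟩
  refine ⟨fun c => Nat.bodd (Nat.find (ex c)), fun c hc => ?_⟩
  have : Nat.find (ex c) = Nat.find (ex (o c)) + 1 := by
    rw [Nat.find_eq_iff]
    refine ⟨Nat.find_spec (ex (o c)), fun n hn => ?_⟩
    cases n with
    | zero => exact hc
    | succ n => exact Nat.find_min (ex (o c)) (by omega)
  simp [this]

theorem St.round [Fintype C] (hα : Involutive α) (H : St α cl) (s : ℕ)
    (hs : ∀ c, (Finset.univ.filter fun x => cl x = c).card ≤ s) :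
    ∃ μ : C → C, St α (fun x => μ (cl x)) ∧
      (∀ c, (Finset.univ.filter fun x => μ (cl x) = c).card ≤ (s + 1) * s) ∧
      28 * (Finset.univ.filter fun x => μ (cl (α x)) ≠ μ (cl x)).card ≤
        27 * (Finset.univ.filter fun x => cl (α x) ≠ cl x).card := by
  classical
  let A : C → C → Prop := fun c c' => c' ≠ c ∧ ∃ x, cl x = c ∧ cl (α x) = c'
  obtain ⟨ρ, r1, r2⟩ := exists_rank A (H.sparse hα) Finset.univ
  let w : C → C → ℕ := fun c c' => (Finset.univ.filter fun x => cl x = c ∧ cl (α x) = c').card
  have ho : ∀ c, ∃ o, (o ≠ c → A c o ∧ ρ c < ρ o) ∧ ∀ c', A c c' → ρ c < ρ c' →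
      o ≠ c ∧ w c c' ≤ w c o := by
    intro c
    rcases (Finset.univ.filter fun c' => A c c' ∧ ρ c < ρ c').eq_empty_or_nonempty with e | e
    · refine ⟨c, fun h => absurd rfl h, fun c' a1 a2 => ?_⟩
      have : c' ∈ Finset.univ.filter fun c' => A c c' ∧ ρ c < ρ c' := by simp [a1, a2]
      simp [e] at this
    · obtain ⟨o, o1, o2⟩ := Finset.exists_max_image _ (w c) e
      have o3 := (Finset.mem_filter.1 o1).2
      exact ⟨o, fun _ => o3, fun c' a1 a2 => ⟨o3.1.1, o2 c' (by simp [a1, a2])⟩⟩
  choose o o1 o2 using ho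
  obtain ⟨col, hcol⟩ := exists_col o ρ (fun c h => (o1 c h).2)
  let W : C → ℕ := fun c => if o c = c then 0 else w c (o c)
  have s1 : (Finset.univ.filter fun x => ρ (cl x) < ρ (cl (α x))).card ≤ 7 * ∑ c, W c := by
    rw [Finset.card_eq_sum_card_fiberwise (f := cl) (t := Finset.univ) (by simp), Finset.mul_sum]
    refine Finset.sum_le_sum fun c _ => ?_
    rw [Finset.card_eq_sum_card_fiberwise (f := fun x => cl (α x))
      (t := Finset.univ.filter fun c' => A c c' ∧ ρ c < ρ c') (by
        intro x hx
        simp only [Finset.coe_filter, Finset.mem_filter, Finset.mem_univ, true_and,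
          Set.mem_ofPred_eq] at hx ⊢
        obtain ⟨a1, rfl⟩ := hx
        exact ⟨⟨fun h => by simp [h] at a1, x, rfl, rfl⟩, a1⟩)]
    refine (Finset.sum_le_card_nsmul _ _ (W c) fun c' hc' => ?_).trans ?_
    · have a := (Finset.mem_filter.1 hc').2
      obtain ⟨b1, b2⟩ := o2 c c' a.1 a.2
      simp only [W, if_neg b1]
      refine le_trans (Finset.card_le_card fun x hx => ?_) b2
      simp only [Finset.mem_filter, Finset.mem_univ, true_and] at hx ⊢
      exact ⟨hx.1.2, hx.2⟩
    · exact Nat.mul_le_mul_right _ (r2 c (Finset.mem_univ _))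
  have s2 : (Finset.univ.filter fun x => cl (α x) ≠ cl x).card ≤
      2 * (Finset.univ.filter fun x => ρ (cl x) < ρ (cl (α x))).card := by
    have : (Finset.univ.filter fun x => cl (α x) ≠ cl x) ⊆
        (Finset.univ.filter fun x => ρ (cl x) < ρ (cl (α x))) ∪
          (Finset.univ.filter fun x => ρ (cl x) < ρ (cl (α x))).image α := by
      intro x hx
      simp only [Finset.mem_filter, Finset.mem_univ, true_and, Finset.mem_union,
        Finset.mem_image] at hx ⊢
      have : ρ (cl (α x)) ≠ ρ (cl x) := fun h => hx (r1 (by simp) (by simp) h)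
      rcases this.lt_or_gt with h | h
      · exact .inr ⟨α x, by rwa [hα], hα x⟩
      · exact .inl h
    refine (Finset.card_le_card this).trans ((Finset.card_union_le _ _).trans ?_)
    have := Finset.card_image_le (s := Finset.univ.filter fun x => ρ (cl x) < ρ (cl (α x))) (f := α)
    omega
  obtain ⟨b, hb⟩ : ∃ b, ∑ c, W c ≤ 2 * ∑ c ∈ Finset.univ.filter (fun c => col c = b), W c := by
    have := Finset.sum_filter_add_sum_filter_not Finset.univ (fun c => col c = true) W
    simp only [Bool.not_eq_true] at this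
    by_contra hc
    push Not at hc
    have := hc true
    have := hc false
    omega
  let μ : C → C := fun c => if col c = b then o c else c
  have μ1 : ∀ c, col c = b → o c ≠ c → μ (o c) = o c := fun c h1 h2 =>
    if_neg (by rw [← h1]; exact hcol c h2)
  have μ2 : ∀ c, μ c ≠ c → A c (μ c) := by
    intro c h
    by_cases e : col c = b
    · simp only [μ, if_pos e] at h ⊢; exact (o1 c h).1
    · exact absurd (if_neg e) h
  refine ⟨μ, H.merges hα μ (fun c => ?_) (fun c h => (μ2 c h).2), fun c => ?_, ?_⟩
  · by_cases e : col c = b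
    · by_cases e' : o c = c
      · simp only [μ, if_pos e, e']
      · have : μ c = o c := if_pos e
        rw [this, μ1 c e e']
    · have : μ c = c := if_neg e
      rw [this, this]
  · rw [Finset.card_eq_sum_card_fiberwise (f := cl)
      (t := insert c ((Finset.univ.filter fun x => cl x = c).image fun x => cl (α x))) (by
        intro x hx
        simp only [Finset.coe_filter, Finset.mem_univ, true_and, Set.mem_ofPred_eq] at hx
        by_cases e : cl x = c
        · simp [e]
        · obtain ⟨-, y, y1, y2⟩ := μ2 (cl x) (by rw [hx]; exact Ne.symm e)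
          simp only [Finset.coe_insert, Finset.coe_image, Finset.coe_filter, Finset.mem_univ,
            true_and, Set.mem_insert_iff, Set.mem_image, Set.mem_ofPred_eq]
          exact .inr ⟨α y, y2.trans hx, by rw [hα, y1]⟩)]
    refine (Finset.sum_le_card_nsmul _ _ s fun c' _ => ?_).trans ?_
    · exact (Finset.card_le_card fun x hx => by
        simp only [Finset.mem_filter, Finset.mem_univ, true_and] at hx ⊢; exact hx.2).trans (hs c')
    · refine Nat.mul_le_mul_right _ ((Finset.card_insert_le _ _).trans ?_)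
      exact Nat.succ_le_succ (Finset.card_image_le.trans (hs c))
  · have s3 : (Finset.univ.filter fun x => μ (cl (α x)) ≠ μ (cl x)).card +
        ∑ c ∈ Finset.univ.filter (fun c => col c = b), W c ≤
        (Finset.univ.filter fun x => cl (α x) ≠ cl x).card := by
      have e : ∑ c ∈ Finset.univ.filter (fun c => col c = b), W c =
          (Finset.univ.filter fun x => col (cl x) = b ∧ o (cl x) ≠ cl x ∧
            cl (α x) = o (cl x)).card := by
        rw [Finset.card_eq_sum_card_fiberwise (f := cl)
          (t := Finset.univ.filter (fun c => col c = b)) (by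
            intro x hx
            simp only [Finset.coe_filter, Finset.mem_univ, true_and, Set.mem_ofPred_eq] at hx ⊢
            exact hx.1)]
        refine Finset.sum_congr rfl fun c hc => ?_
        have hc := (Finset.mem_filter.1 hc).2
        simp only [W, w]
        split_ifs with e
        · symm
          rw [Finset.card_eq_zero, Finset.filter_eq_empty_iff]
          rintro x hx rfl
          exact (Finset.mem_filter.1 hx).2.2.1 e
        · congr 1
          ext x
          simp only [Finset.mem_filter, Finset.mem_univ, true_and]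
          exact ⟨by rintro ⟨rfl, h⟩; exact ⟨⟨hc, e, h⟩, rfl⟩, by rintro ⟨h, rfl⟩; exact ⟨rfl, h.2.2⟩⟩
      rw [e, ← Finset.card_union_of_disjoint]
      · refine Finset.card_le_card fun x hx => ?_
        simp only [Finset.mem_filter, Finset.mem_univ, true_and, Finset.mem_union] at hx ⊢
        rcases hx with h | h
        · exact fun hc => h (by rw [hc])
        · rw [h.2.2]; exact h.2.1
      · rw [Finset.disjoint_filter]
        rintro x - h ⟨a1, a2, a3⟩
        apply h
        rw [a3, μ1 _ a1 a2]
        exact (if_pos a1).symm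
    omega

theorem hyperfinite (E : ℕ) : ∃ J : ℕ, ∀ (D : Type) [Fintype D] [DecidableEq D] (φ : Perm D)
    (α : D → D), Involutive α → Pl φ α → ∃ cl : D → Sym2 D, (∀ x, cl (α x) = cl x) ∧
      (∀ c, (Finset.univ.filter fun x => cl x = c).card ≤ J) ∧
      E * (Finset.univ.filter fun x => cl (φ x) ≠ cl x).card ≤ Fintype.card D := by
  have key : ∀ k : ℕ, ∃ s, ∀ (D C : Type) [Fintype D] [DecidableEq D] [Fintype C] [DecidableEq C]
      (α : D → D) (cl : D → C), Involutive α → St α cl →
      (∀ c, (Finset.univ.filter fun x => cl x = c).card ≤ 4) →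
      ∃ μ : C → C, St α (fun x => μ (cl x)) ∧
        (∀ c, (Finset.univ.filter fun x => μ (cl x) = c).card ≤ s) ∧
        28 ^ k * (Finset.univ.filter fun x => μ (cl (α x)) ≠ μ (cl x)).card ≤
          27 ^ k * Fintype.card D := by
    intro k
    induction k with
    | zero =>
      exact ⟨4, fun D C _ _ _ _ α cl _ H h => ⟨id, H, h, by simpa using Finset.card_le_univ _⟩⟩
    | succ k ih =>
      obtain ⟨s, hs⟩ := ih
      refine ⟨(s + 1) * s, fun D C _ _ _ _ α cl hα H h => ?_⟩
      obtain ⟨μ, a1, a2, a3⟩ := hs D C α cl hα H h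
      obtain ⟨ν, b1, b2, b3⟩ := a1.round hα s a2
      refine ⟨fun c => ν (μ c), b1, b2, ?_⟩
      calc _ = 28 ^ k * (28 * _) := by rw [pow_succ, mul_assoc]
        _ ≤ 28 ^ k * (27 * _) := Nat.mul_le_mul_left _ b3
        _ = 27 * (28 ^ k * _) := by ring
        _ ≤ 27 * (27 ^ k * _) := Nat.mul_le_mul_left _ a3
        _ = _ := by ring
  obtain ⟨k, hk⟩ : ∃ k : ℕ, 2 * E * 27 ^ k ≤ 28 ^ k := by
    obtain ⟨k, hk⟩ := pow_unbounded_of_one_lt (2 * E : ℚ) (by norm_num : (1 : ℚ) < 28 / 27)
    refine ⟨k, ?_⟩
    rw [div_pow, lt_div_iff₀ (by positivity)] at hk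
    exact_mod_cast hk.le
  obtain ⟨s, hs⟩ := key k
  refine ⟨s, fun D _ _ φ α hα H => ?_⟩
  let φM : Perm (D × Bool) :=
    { toFun := fun x => if x.2 then (α x.1, false) else (x.1, true)
      invFun := fun x => if x.2 then (x.1, false) else (α x.1, true)
      left_inv := by rintro ⟨j, b⟩; cases b <;> simp [hα j]
      right_inv := by rintro ⟨j, b⟩; cases b <;> simp [hα j] }
  let αM : D × Bool → D × Bool := fun x => if x.2 then (φ x.1, false) else (φ⁻¹ x.1, true)
  have f1 : ∀ d, φM (d, true) = (α d, false) := fun _ => rfl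
  have f2 : ∀ d, φM (d, false) = (d, true) := fun _ => rfl
  have f3 : ∀ d, αM (d, true) = (φ d, false) := fun _ => rfl
  have f4 : ∀ d, αM (d, false) = (φ⁻¹ d, true) := fun _ => rfl
  have iM : Involutive αM := by rintro ⟨j, b⟩; cases b <;> simp [f3, f4]
  have HM : Pl φM αM := by
    intro h hh
    have a : ∀ d, h (φ d, true) - h (φ d, false) = h (d, true) - h (α d, false) := fun d => hh (d, true)
    obtain ⟨B, b1, b2⟩ := H (fun d => h (d, true) - h (d, false)) (by
      intro d
      have := a d
      have := a (α d)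
      rw [hα] at this
      linarith)
    refine ⟨fun x => if x.2 then h (x.1, true) - h (x.1, false) - B x.1 else - B x.1, ?_, ?_⟩
    · rintro ⟨d, b⟩
      cases b
      · have := b2 (φ⁻¹ d)
        simp only [f2, f4, if_true]
        simp at this ⊢
        linarith
      · simp [f1, f3, b1]
    · rintro ⟨d, b⟩
      cases b
      · simp [f2]
      · have := b2 d
        have := a d
        simp [f1, ← b1]
        linarith
  obtain ⟨μ, -, a2, a3⟩ := hs (D × Bool) (Sym2 D) αM (fun x => s(x.1, α x.1)) iM
    ⟨φM, αM, iM, HM, by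
      rintro ⟨d, b⟩; cases b
      · rfl
      · simp [f1, hα d, Sym2.eq_swap], by
      intro h hh
      have k1 : ∀ d b, h (d, b) = h (d, true) := fun d b => by
        cases b
        · exact (hh (d, false)).symm
        · rfl
      rintro ⟨d, b⟩ ⟨d', b'⟩ e
      simp only [Sym2.eq_iff] at e
      rcases e with ⟨rfl, -⟩ | ⟨rfl, -⟩
      · rw [k1, k1 _ b']
      · rw [k1 _ b, ← k1 _ false, k1 _ b', ← hh (d', true)]; rfl, fun _ _ => rfl⟩ (by
      intro c
      rcases (Finset.univ.filter fun x : D × Bool => s(x.1, α x.1) = c).eq_empty_or_nonempty with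
        e | ⟨x, hx⟩
      · simp [e]
      · obtain rfl := (Finset.mem_filter.1 hx).2
        refine (Finset.card_le_card (t := ({x.1, α x.1} : Finset D) ×ˢ Finset.univ) ?_).trans ?_
        · intro y hy
          have := (Finset.mem_filter.1 hy).2
          simp only [Sym2.eq_iff] at this
          rcases this with h | h <;> simp [h.1]
        · rw [Finset.card_product]
          have := Finset.card_le_two (a := x.1) (b := α x.1)
          simp only [Finset.card_univ, Fintype.card_bool]
          omega)
  refine ⟨fun d => μ s(d, α d), fun d => by simp only [hα d, Sym2.eq_swap], fun c => ?_, ?_⟩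
  · refine le_trans (Finset.card_le_card_of_injOn (fun d => (d, true)) ?_ ?_) (a2 c)
    · intro d hd; simpa using hd
    · intro a _ b _ h; exact (Prod.ext_iff.1 h).1
  · have : (Finset.univ.filter fun d => μ s(φ d, α (φ d)) ≠ μ s(d, α d)).card ≤
        (Finset.univ.filter fun x : D × Bool =>
          μ s((αM x).1, α (αM x).1) ≠ μ s(x.1, α x.1)).card := by
      refine Finset.card_le_card_of_injOn (fun d => (d, true)) ?_ ?_
      · intro d hd; simpa [f3] using hd
      · intro a _ b _ h; exact (Prod.ext_iff.1 h).1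
    simp only [Fintype.card_prod, Fintype.card_bool] at a3
    have p : 0 < 2 * 27 ^ k := by positivity
    refine Nat.le_of_mul_le_mul_left ?_ p
    calc _ = (2 * E * 27 ^ k) * _ := by ring
      _ ≤ 28 ^ k * _ := Nat.mul_le_mul hk this
      _ ≤ _ := a3
      _ = _ := by ring

end Vale.Agent.P201
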