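import Vale.Agent.P201.Diag

/-! Aspherical graphical presentations give torsion-free groups. -/

namespace Vale.Agent.P201

open Equiv Function Vale.Agent.P194

variable {S V : Type} {Step : V → S × Bool → V → Prop}

theorem exists_dev' (hsym : ∀ v a v', Step v a v' → Step v' (linv a) v) :
    ∃ f : V → Gp Step, ∀ v a v', Step v a v' → f v' = f v * gen Step a := by
  let st : Setoid V :=
    { r := fun v v' => ∃ u, Wk Step v u v'
      iseqv := ⟨fun v => ⟨[], .nil v⟩, fun ⟨u, h⟩ => ⟨_, h.rev hsym⟩,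
        fun ⟨u, h⟩ ⟨u', h'⟩ => ⟨_, h.append h'⟩⟩ }
  have hc : ∀ v, ∃ u, Wk Step (Quotient.mk st v).out u v := fun v => Quotient.mk_out (s := st) v
  choose c hc using hc
  have key : ∀ v u v', Wk Step v u v' →
      ((c v').map (gen Step)).prod = ((c v).map (gen Step)).prod * (u.map (gen Step)).prod := by
    intro v u v' h
    have e : Quotient.mk st v = Quotient.mk st v' := Quotient.sound ⟨u, h⟩
    have h1 := hc v'
    rw [← e] at h1
    have := (((hc v).append h).append (h1.rev hsym)).gen_prod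
    rw [gen_prod, ← FreeGroup.mul_mk, ← FreeGroup.mul_mk, ← FreeGroup.inv_mk,
      QuotientGroup.mk_mul, QuotientGroup.mk_mul, QuotientGroup.mk_inv, mul_inv_eq_one] at this
    rw [gen_prod, gen_prod, gen_prod, this]
  exact ⟨fun v => ((c v).map (gen Step)).prod, fun v a v' h => by
    simpa using key v [a] v' (.cons h (.nil _))⟩

theorem exists_theta {G : Type} [Group G] (g : G) :
    ∃ θ : G → ZMod (orderOf g), ∀ x, θ (g * x) = θ x + 1 := by
  let st : Setoid G := QuotientGroup.rightRel (Subgroup.zpowers g)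
  have h : ∀ x, ∃ k : ℤ, x = g ^ k * (Quotient.mk st x).out := by
    intro x
    have : st.r (Quotient.mk st x).out x := Quotient.mk_out (s := st) x
    obtain ⟨k, hk⟩ := QuotientGroup.rightRel_apply.1 this
    exact ⟨k, by simp only at hk; rw [hk]; simp⟩
  choose k hk using h
  refine ⟨fun x => (k x : ZMod (orderOf g)), fun x => ?_⟩
  have e : Quotient.mk st (g * x) = Quotient.mk st x :=
    Quotient.sound (QuotientGroup.rightRel_apply.2 (by simp))
  have h1 := hk (g * x)
  rw [e] at h1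
  have h2 : g ^ k (g * x) = g ^ (k x + 1) := by
    have : g * x = g ^ (k x + 1) * (Quotient.mk st x).out := by
      conv_lhs => rw [hk x]
      rw [add_comm, zpow_add, zpow_one, mul_assoc]
    exact mul_right_cancel (h1.symm.trans this)
  have := (ZMod.intCast_eq_intCast_iff _ _ _).2 (zpow_eq_zpow_iff_modEq.1 h2)
  simpa using this

theorem torsionFree [Nonempty S] (hsym : ∀ v a v', Step v a v' → Step v' (linv a) v)
    (hsurj : ∀ a, ∃ v v', Step v a v')
    (hasph : ∀ Δ : Dg (StepP Step) (gen Step) (.inr []) (.inr []), Δ.Red → ∀ d, d = Δ.star)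
    (g : Gp Step) (n : ℕ) (hn : 0 < n) (hg : g ^ n = 1) : g = 1 := by
  classical
  by_contra hg1
  have hγ := @gen_linv S V Step
  obtain ⟨f, hf⟩ := exists_dev' hsym
  obtain ⟨θ, hθ⟩ := exists_theta g
  have m0 : 0 < orderOf g := (isOfFinOrder_iff_pow_eq_one.2 ⟨n, hn, hg⟩).orderOf_pos
  have m1 : orderOf g ≠ 1 := fun h => hg1 (orderOf_eq_one_iff.1 h)
  have gm := pow_orderOf_eq_one g
  generalize orderOf g = m at θ hθ m0 m1 gm
  haveI : NeZero m := ⟨m0.ne'⟩
  set γ := gen Step
  let ω : Gp Step → S × Bool → ℤ := fun x a =>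
    if a.2 then ((θ (x * γ a) - θ x).val : ℤ) else - ((θ x - θ (x * γ a)).val : ℤ)
  have ω1 : ∀ x a, ω x a + ω (x * γ a) (linv a) = 0 := by
    rintro x ⟨s, b⟩
    have e : x * γ (s, b) * γ (linv (s, b)) = x := by rw [hγ]; simp
    simp only [ω, e]
    cases b <;> simp [linv]
  have ω2 : ∀ x a, ω (g * x) a = ω x a := by
    intro x a
    simp only [ω, mul_assoc, hθ, add_sub_add_right_eq_sub]
  have ω3 : ∀ x a, (ω x a : ZMod m) = θ (x * γ a) - θ x := by
    intro x a
    simp only [ω]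
    split_ifs <;> simp
  have P2 : ∀ l y, PS ω γ (g * y) l = PS ω γ y l := by
    intro l
    induction l with
    | nil => intro y; rfl
    | cons a l ih => intro y; rw [PS, PS, ω2, mul_assoc, ih]
  have P3 : ∀ l y, (PS ω γ y l : ZMod m) = θ (y * (l.map γ).prod) - θ y := by
    intro l
    induction l with
    | nil => intro y; simp [PS]
    | cons a l ih => intro y; rw [PS]; push_cast; rw [ω3, ih]; simp [mul_assoc]
  let μ : Gp Step → ℤ →+ (ZMod m → ℤ) := fun x => AddMonoidHom.single (fun _ => ℤ) (θ x)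
  let wt : Gp Step → V ⊕ List (S × Bool) → S × Bool → (ZMod m → ℤ) := fun x p a =>
    Sum.elim (fun v => μ (x * (f v)⁻¹) (ω x a)) (fun _ => 0) p
  have hw : ∀ x p a q, StepP Step p a q → wt x p a + wt (x * γ a) q (linv a) = 0 := by
    rintro x (v | l) a (v' | l') h
    · have e : x * γ a * (f v')⁻¹ = x * (f v)⁻¹ := by rw [hf _ _ _ h]; group
      simp only [wt, Sum.elim_inl, e]
      rw [← map_add, ω1, map_zero]
    · exact h.elim
    · exact h.elim
    · simp [wt]
  have hw0 : ∀ x l a, wt x (.inr l) a = 0 := fun _ _ _ => rfl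
  let T : Gp Step → List (S × Bool) → (ZMod m → ℤ) → Prop := fun y l z =>
    (l.map γ).prod = 1 ∧ ∑ j, z j = - PS ω γ y l ∧ (∀ j, (m : ℤ) ∣ z j) ∧ TF Step γ wt y l z
  have Trot : ∀ y u v z, T y (u ++ v) z → T (y * (u.map γ).prod) (v ++ u) z := by
    rintro y u v z ⟨h1, h2, h3, h4⟩
    refine ⟨?_, ?_, h3, tf_rot hw hw0 hγ u v y h1 h4⟩
    · rw [List.map_append, List.prod_append] at h1 ⊢
      exact mul_eq_one_comm.1 h1
    · rw [List.map_append, List.prod_append] at h1
      rw [h2, PS_append, PS_append, mul_assoc, h1, mul_one, add_comm]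
  have Tins : ∀ y v r w z, Wk Step v r v → T y w z →
      T y (r ++ w) (z - μ (y * (f v)⁻¹) (PS ω γ y r)) := by
    rintro y v r w z hr ⟨h1, h2, h3, h4⟩
    have k : (r.map γ).prod = 1 := hr.gen_prod
    refine ⟨?_, ?_, fun j => ?_, tf_ins hw hw0 hγ hsym hr k f hf μ ω (fun _ _ _ => rfl) h4⟩
    · rw [List.map_append, List.prod_append, k, h1, one_mul]
    · simp only [Pi.sub_apply, Finset.sum_sub_distrib, h2, PS_append, k, mul_one, μ,
        AddMonoidHom.single_apply, Finset.sum_pi_single', Finset.mem_univ, if_true]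
      ring
    · have : (m : ℤ) ∣ PS ω γ y r := by
        rw [← ZMod.intCast_zmod_eq_zero_iff_dvd, P3, k, mul_one, sub_self]
      simp only [Pi.sub_apply, μ, AddMonoidHom.single_apply, Pi.single_apply]
      split_ifs
      · exact dvd_sub (h3 j) this
      · simpa using h3 j
  have Tfold : ∀ y a w z, T y (a :: linv a :: w) z → T y w z := by
    rintro y a w z ⟨h1, h2, h3, h4⟩
    refine ⟨?_, ?_, h3, tf_fold hw hγ h4⟩
    · simpa [hγ] using h1
    · rw [h2, PS, PS, ← add_assoc, ω1, hγ]; simp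
  have st : ∀ l l', FreeGroup.Red.Step l l' → ∀ y z, T y l z ↔ T y l' z := by
    rintro _ _ @⟨l₁, l₂, x, b⟩ y z
    constructor
    · intro h
      have h1 := Tfold _ (x, b) (l₂ ++ l₁) _ (Trot _ _ _ _ h)
      have h2 := Trot _ _ _ _ h1
      have h3 := h2.1
      rw [List.map_append, List.prod_append] at h3
      rwa [mul_assoc, h3, mul_one] at h2
    · intro h
      obtain ⟨v, v', hv⟩ := hsurj (x, b)
      have hw : Wk Step v [(x, b), linv (x, b)] v := .cons hv (.cons (hsym _ _ _ hv) (.nil _))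
      have h1 := Tins _ _ _ _ _ hw (Trot _ _ _ _ h)
      rw [PS, PS, PS, add_zero, ω1, map_zero, sub_zero] at h1
      have h2 := Trot _ ((x, b) :: (x, !b) :: l₂) l₁ _ h1
      have h3 := h2.1
      rw [List.map_append, List.prod_append] at h3
      rwa [mul_assoc, h3, mul_one] at h2
  have rd : ∀ l l', FreeGroup.Red l l' → ∀ y z, T y l z ↔ T y l' z := by
    intro l l' h
    induction h with
    | refl => intro _ _; rfl
    | tail _ h ih => intro y z; exact (ih y z).trans (st _ _ h y z)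
  have eq : ∀ l l', FreeGroup.mk l = FreeGroup.mk l' → ∀ y z, T y l z → T y l' z := by
    intro l l' h y z hl
    obtain ⟨c, h1, h2⟩ := FreeGroup.Red.exact.1 h
    exact (rd _ _ h2 y z).2 ((rd _ _ h1 y z).1 hl)
  let H : FreeGroup S → Prop := fun t => ∃ δ : Gp Step → ZMod m → ℤ,
    (∀ y j, δ (g * y) (j + 1) = δ y j) ∧
      ∀ y l l' z, FreeGroup.mk l' = t * FreeGroup.mk l → T y l z → T y l' (z + δ y)
  have H1 : H 1 := ⟨0, fun _ _ => rfl, fun y l l' z h h' => by
    rw [one_mul] at h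
    simpa using eq _ _ h.symm _ _ h'⟩
  have sj : ∀ t : FreeGroup S, ∃ u, FreeGroup.mk u = t := by rintro ⟨u⟩; exact ⟨u, rfl⟩
  have Hmul : ∀ a b, H a → H b → H (a * b) := by
    rintro a b ⟨δ, a1, a2⟩ ⟨δ', b1, b2⟩
    obtain ⟨u, rfl⟩ := sj b
    refine ⟨δ' + δ, fun y j => by simp [a1, b1], fun y l l' z h h' => ?_⟩
    have := a2 y _ l' _ (by rw [h, mul_assoc, ← FreeGroup.mul_mk])
      (b2 y l (u ++ l) z FreeGroup.mul_mk.symm h')
    simpa [add_assoc] using this
  have Hrel : ∀ c v r, Wk Step v r v → H (c * FreeGroup.mk r * c⁻¹) := by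
    intro c v r hr
    obtain ⟨u, rfl⟩ := sj c
    refine ⟨fun y => - μ (y * (u.map γ).prod * (f v)⁻¹) (PS ω γ (y * (u.map γ).prod) r),
      fun y j => ?_, fun y l l' z h h' => ?_⟩
    · simp only [mul_assoc, P2, μ, hθ, Pi.neg_apply, AddMonoidHom.single_apply, Pi.single_apply,
        add_left_inj]
    · have h1 := eq l (u ++ (FreeGroup.invRev u ++ l)) (by
        rw [← FreeGroup.mul_mk, ← FreeGroup.mul_mk, ← FreeGroup.inv_mk, mul_inv_cancel_left])
        _ _ h'
      have h2 := Tins _ _ _ _ _ hr (Trot _ _ _ _ h1)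
      rw [← List.append_assoc] at h2
      have h3 := Trot _ _ _ _ h2
      have h4 := h3.1
      rw [List.map_append, List.prod_append] at h4
      rw [mul_assoc, h4, mul_one, sub_eq_add_neg] at h3
      refine eq _ _ ?_ _ _ h3
      rw [h, ← FreeGroup.mul_mk, ← FreeGroup.mul_mk, ← FreeGroup.mul_mk, ← FreeGroup.inv_mk]
      simp only [mul_assoc]
  have Hall : ∀ t ∈ Subgroup.normalClosure (Rels Step), H t ∧ H t⁻¹ := by
    intro t ht
    refine Subgroup.closure_induction (p := fun t _ => H t ∧ H t⁻¹) ?_ ?_ ?_ ?_ ht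
    · intro x hx
      obtain ⟨_, ⟨v, r, hr, rfl⟩, hc⟩ := Group.mem_conjugatesOfSet_iff.1 hx
      obtain ⟨c, rfl⟩ := isConj_iff.1 hc
      refine ⟨Hrel c v r hr, ?_⟩
      have := Hrel c v _ (hr.rev hsym)
      rw [← FreeGroup.inv_mk] at this
      simpa [mul_assoc] using this
    · exact ⟨H1, by simpa using H1⟩
    · intro a b _ _ ha hb
      exact ⟨Hmul _ _ ha.1 hb.1, by rw [mul_inv_rev]; exact Hmul _ _ hb.2 ha.2⟩
    · intro a _ ha
      exact ⟨ha.2, by simpa using ha.1⟩
  have T0 : ∀ y, T y [] 0 := fun y => ⟨rfl, by simp [PS], by simp, tf_nil y⟩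
  have Tz : ∀ y z, T y [] z → z = 0 := by
    rintro y z ⟨-, -, -, Δ₀, -, rfl⟩
    obtain ⟨Δ, hΔ, -, k2⟩ := exists_red' wt hw hγ Δ₀
    rw [← k2]
    refine Finset.sum_eq_zero fun d _ => ?_
    rw [hasph Δ hΔ d, if_pos Δ.hstar]
  obtain ⟨w, hw'⟩ : ∃ w : List (S × Bool), (w.map γ).prod = g := by
    obtain ⟨⟨u⟩, rfl⟩ := QuotientGroup.mk_surjective g
    exact ⟨u, gen_prod u⟩
  let W : ℕ → List (S × Bool) := fun k => (List.replicate k w).flatten
  have W1 : ∀ k, W (k + 1) = w ++ W k := fun k => by simp [W, List.replicate_succ]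
  have W2 : ∀ k, W (k + 1) = W k ++ w := fun k => by simp [W, List.replicate_succ']
  have W3 : ∀ k, ((W k).map γ).prod = g ^ k := by
    intro k
    induction k with
    | zero => simp [W]
    | succ k ih => rw [W2, List.map_append, List.prod_append, ih, hw', pow_succ]
  have W4 : ∀ k, PS ω γ 1 (W k) = k * PS ω γ 1 w := by
    intro k
    induction k with
    | zero => simp [W, PS]
    | succ k ih =>
      rw [W1, PS_append, hw', one_mul, ← mul_one g, P2, ih]; push_cast; ring
  have hm : FreeGroup.mk (W m) ∈ Subgroup.normalClosure (Rels Step) := by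
    rw [← QuotientGroup.eq_one_iff, ← gen_prod, W3, gm]
  obtain ⟨⟨δ, a1, a2⟩, ⟨δ', -, b2⟩⟩ := Hall _ hm
  have t1 : ∀ y, T y (W m) (δ y) := fun y => by
    simpa using a2 y [] (W m) 0 (mul_one _).symm (T0 y)
  have t2 : T g (W m) (δ 1) := by
    obtain ⟨k, rfl⟩ := Nat.exists_eq_succ_of_ne_zero m0.ne'
    have := t1 1
    rw [W1] at this
    have := Trot _ _ _ _ this
    rwa [← W2, hw', one_mul] at this
  have t3 : δ 1 = δ g := by
    have c1 := Tz _ _ (b2 g _ [] _ (inv_mul_cancel _).symm t2)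
    have c2 := Tz _ _ (b2 g _ [] _ (inv_mul_cancel _).symm (t1 g))
    exact add_right_cancel (c1.trans c2.symm)
  have t4 : ∀ j, δ 1 (j + 1) = δ 1 j := fun j => by
    have := a1 1 j
    rwa [mul_one, ← t3] at this
  have t5 : ∀ k : ℕ, δ 1 k = δ 1 0 := by
    intro k
    induction k with
    | zero => simp
    | succ k ih => rw [Nat.cast_succ, t4, ih]
  obtain ⟨-, c2, c3, -⟩ := t1 1
  have t6 : ∑ j, δ 1 j = m * δ 1 0 := by
    rw [Finset.sum_congr rfl (g := fun _ => δ 1 0) fun j _ => by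
      rw [← t5 j.val, ZMod.natCast_zmod_val]]
    simp [ZMod.card]
  rw [t6, W4, ← mul_neg] at c2
  have c4 := mul_left_cancel₀ (by exact_mod_cast m0.ne') c2
  have c5 := c3 0
  rw [c4, dvd_neg, ← ZMod.intCast_zmod_eq_zero_iff_dvd, P3, hw', one_mul, ← mul_one g, hθ] at c5
  have c6 : ((1 : ℕ) : ZMod m) = 0 := by simpa using c5
  rw [ZMod.natCast_eq_zero_iff] at c6
  exact m1 (Nat.dvd_one.1 c6)

end Vale.Agent.P201
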