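import Vale.Agent.P201.Sphere
import Vale.Agent.P201.TF

/-! A torsion-free group whose group algebra over the field with two elements has zero divisors. -/

namespace Vale.Agent.P201

open Function Finset Equiv Vale.Agent.P194

variable {M : ℕ}

/-- the labelled graph -/
def Stp (ω : QQ → Perm (FF M)) (v : VV M) (a : ZMod 21 × Bool) (v' : VV M) : Prop :=
  ∃ e : EE M, In ω e ∧ e.1.1 = a.1 ∧
    if a.2 then v = tl e.1 e.2.1 ∧ v' = hd e.1 e.2.2 else v = hd e.1 e.2.2 ∧ v' = tl e.1 e.2.1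

theorem Stp.sym {ω : QQ → Perm (FF M)} (v : VV M) (a : ZMod 21 × Bool) (v' : VV M)
    (h : Stp ω v a v') : Stp ω v' (linv a) v := by
  obtain ⟨e, h1, h2, h3⟩ := h
  refine ⟨e, h1, h2, ?_⟩
  rcases a with ⟨p, b⟩
  cases b <;> simpa [linv, and_comm] using h3

theorem main_tf : ∃ (M : ℕ) (ω : QQ → Perm (FF M)), Odd M ∧
    ∀ (g : Gp (Stp ω)) (n : ℕ), 0 < n → g ^ n = 1 → g = 1 := by
  obtain ⟨M, ω, hM, -, H⟩ := sphere
  refine ⟨M, ω, hM, torsionFree Stp.sym ?_ ?_⟩
  · rintro ⟨p, b⟩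
    let x : FF M := (0, ⟨0, hM.pos⟩)
    cases b
    · exact ⟨_, _, ((p, 0), x, ω (p, 0) x), rfl, rfl, rfl, rfl⟩
    · exact ⟨_, _, ((p, 0), x, ω (p, 0) x), rfl, rfl, rfl, rfl⟩
  intro Δ h
  have s0 : Δ.φ Δ.star = Δ.star := by
    by_contra c
    have := Δ.hstep _ (h.nodum _ c)
    rw [Δ.hx] at this
    obtain ⟨l, -, e⟩ := this.of_inr
    simp at e
  have s1 : ∀ d, Δ.φ d ≠ Δ.star ↔ d ≠ Δ.star := fun d => by
    rw [not_iff_not]
    exact ⟨fun e => Δ.φ.injective (e.trans s0.symm), fun e => by rw [e, s0]⟩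
  have s2 := pos_ind h (fun d _ => d = Δ.star) s0 fun d l a b => absurd b a
  have s3 : ∀ d : {d // d ≠ Δ.star}, ∃ v, Δ.pos d.1 = .inl v := fun d => by
    rcases e : Δ.pos d.1 with v | l
    · exact ⟨v, rfl⟩
    · exact absurd (s2 _ _ e) d.2
  choose v hv using s3
  let φ : Perm {d // d ≠ Δ.star} := Δ.φ.subtypePerm s1
  let α : {d // d ≠ Δ.star} → {d // d ≠ Δ.star} := fun d => ⟨Δ.α d.1, Δ.alpha_ne d.2⟩
  have s4 : ∀ d, Stp ω (v d) (Δ.lab d.1) (v (φ d)) := fun d => by
    have := Δ.hstep _ (h.nodum _ d.2)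
    rw [hv d, show Δ.φ d.1 = (φ d).1 from rfl, hv] at this
    exact this
  choose ed e1 e2 e3 using s4
  have l : ∀ d, Δ.lab (α d).1 = linv (Δ.lab d.1) := fun d => Δ.hlab _ (h.nodum _ d.2)
  have l4 : ∀ d, (ed (α d)).1.1 = (ed d).1.1 := fun d => by rw [e2, e2, l]; rfl
  have l7 : ∀ d, v (φ (α d)) ≠ v d := by
    intro d e
    refine h.noE d.1 d.2 ?_ ?_
    · change Δ.pos (φ d).1 = Δ.pos (α d).1
      rw [hv, hv]
      have a := e3 d
      have b := e3 (α d)
      rw [l, e] at b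
      cases c : (Δ.lab d.1).2 <;> simp only [linv, c, Bool.not_false, Bool.not_true, if_true,
        Bool.false_eq_true, if_false] at a b
      · rw [a.2, b.1, edge_hd (e1 _) (e1 _) (b.2.symm.trans a.1) (l4 d)]
      · rw [a.2, b.1, edge_tl (e1 _) (e1 _) (b.2.symm.trans a.1) (l4 d)]
    · change Δ.pos (φ (α d)).1 = _
      rw [hv, hv, e]
  have := H {d // d ≠ Δ.star} φ α v ed (fun d => Subtype.ext (Δ.invol d.1))
    (fun d e => h.nodum _ d.2 (congrArg Subtype.val e))
    (Pl_K Δ.hstar (fun _ => rfl) (fun d => by rw [if_neg ((s1 _).2 d.2)]; rfl) Δ.pl)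
    (fun d => ?_) e1 (fun d e => ?_) l4 (fun d => ?_) (fun d e => l7 d (by rw [e])) l7
  · intro d
    by_contra c
    exact this.elim ⟨d, c⟩
  · have a := e3 d
    split_ifs at a
    exacts [Or.inl a, Or.inr a]
  · have a := e3 d
    have b := e3 (φ d)
    have c := (e2 (φ d)).symm.trans (e ▸ e2 d)
    rw [e] at b
    have k : Δ.lab (φ d).1 = linv (Δ.lab d.1) ∧ v (φ (φ d)) = v d := by
      rcases e4 : Δ.lab d.1 with ⟨p, x⟩
      rcases e5 : Δ.lab (φ d).1 with ⟨q, y⟩
      rw [e4] at a c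
      rw [e5] at b c
      obtain rfl : q = p := c
      cases x <;> cases y <;> simp only [if_true, Bool.false_eq_true, if_false] at a b
      · exact absurd (a.2.symm.trans b.1) (tl_ne_hd _ _ _ _)
      · exact ⟨rfl, b.2.trans a.1.symm⟩
      · exact ⟨rfl, b.2.trans a.1.symm⟩
      · exact absurd (b.1.symm.trans a.2) (tl_ne_hd _ _ _ _)
    refine h.noF d.1 d.2 (φ d).2 k.1 ?_
    change Δ.pos (φ (φ d)).1 = _
    rw [hv, hv, k.2]
  · have a := e3 d
    have b := e3 (α d)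
    rw [l] at b
    cases c : (Δ.lab d.1).2 <;> simp only [linv, c, Bool.not_false, Bool.not_true, if_true,
      Bool.false_eq_true, if_false] at a b <;> rw [a.1, b.2] <;> rfl

theorem exists_xi (ω : QQ → Perm (FF M)) : ∃ ξ : Gp (Stp ω) → ZMod 3,
    ∀ x p, ξ (x * gen (Stp ω) (p, true)) = ξ x + nu p := by
  let F : FreeGroup (ZMod 21) →* Multiplicative (ZMod 3) :=
    FreeGroup.lift fun p => Multiplicative.ofAdd (nu p)
  have k : ∀ v r v', Wk (Stp ω) v r v' →
      F (FreeGroup.mk r) = Multiplicative.ofAdd (sec v - sec v') := by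
    intro v r v' h
    induction h with
    | nil v => simp [F]
    | @cons v v' v'' a l hs _ ih =>
      rw [← List.singleton_append, ← FreeGroup.mul_mk, map_mul, ih]
      obtain ⟨e, -, h2, h3⟩ := hs
      rcases a with ⟨p, b⟩
      obtain rfl : e.1.1 = p := h2
      cases b <;> simp only [if_true, Bool.false_eq_true, if_false] at h3
      · have : F (FreeGroup.mk [(e.1.1, false)]) = Multiplicative.ofAdd (- nu e.1.1) := by
          simp [F]
        rw [this, ← ofAdd_add, h3.1, h3.2]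
        simp only [sec, tl, hd, Sum.elim_inl, Sum.elim_inr]
        congr 1; ring
      · have : F (FreeGroup.mk [(e.1.1, true)]) = Multiplicative.ofAdd (nu e.1.1) := by
          simp [F]
        rw [this, ← ofAdd_add, h3.1, h3.2]
        simp only [sec, tl, hd, Sum.elim_inl, Sum.elim_inr]
        congr 1; ring
  have hle : Subgroup.normalClosure (Rels (Stp ω)) ≤ F.ker := by
    apply Subgroup.normalClosure_le_normal
    rintro _ ⟨v, r, hr, rfl⟩
    simp [k v r v hr]
  refine ⟨fun x => (QuotientGroup.lift _ F hle x).toAdd, fun x p => ?_⟩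
  simp [gen, F]

theorem sum_single_ne {G ι T : Type} [Fintype ι] [DecidableEq T] (f : ι → G) (c : ι → ZMod 2)
    (h : G → T) (i : T) (H : ∑ v, (if h (f v) = i then c v else 0) ≠ 0) :
    ∑ v, MonoidAlgebra.single (f v) (c v) ≠ 0 := by
  intro e
  have := congrArg (fun a => Finsupp.mapDomain h (MonoidAlgebra.coeff a) i) e
  simp only [MonoidAlgebra.coeff_sum, MonoidAlgebra.coeff_single, Finsupp.mapDomain_finsetSum,
    Finsupp.mapDomain_single, Finsupp.finsetSum_apply, Finsupp.single_apply,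
    MonoidAlgebra.coeff_zero, Finsupp.mapDomain_zero, Finsupp.zero_apply] at this
  exact H this

theorem diff_odd : ∀ δ, Odd (univ.filter fun a : Fin 5 × Fin 5 => DD a.1 - DD a.2 = δ).card := by
  decide +kernel

theorem line_sum {A : Type} [AddCommGroup A] [Module (ZMod 2) A] (F : ZMod 21 → ZMod 21 → A) :
    ∑ p, ∑ d, ∑ d', F (p - DD d) (p - DD d') = ∑ l, ∑ l', F l l' := by
  have k : ∀ g : ZMod 21 → A, ∑ d, ∑ d', g (DD d - DD d') = ∑ δ, g δ := by
    intro g
    rw [← Fintype.sum_prod_type', ← sum_fiberwise univ fun a : Fin 5 × Fin 5 => DD a.1 - DD a.2]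
    refine sum_congr rfl fun δ _ => ?_
    rw [sum_congr rfl (g := fun _ => g δ) fun a ha => by rw [(mem_filter.1 ha).2], sum_const]
    obtain ⟨n, hn⟩ := diff_odd δ
    rw [hn, ← Nat.cast_smul_eq_nsmul (ZMod 2)]
    push_cast
    rw [show (2 : ZMod 2) = 0 from rfl]; simp
  rw [sum_comm]
  rw [sum_congr rfl (g := fun d => ∑ l, ∑ d', F l (l + (DD d - DD d'))) fun d _ =>
    Fintype.sum_equiv (Equiv.subRight (DD d)) _ _ fun p => by simp, sum_comm]
  refine sum_congr rfl fun l _ => ?_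
  rw [k fun δ => F l (l + δ)]
  exact Fintype.sum_equiv (Equiv.addLeft l) _ _ fun _ => rfl

/-- coefficients -/
def cf (i : ZMod 3) : ZMod 2 := if i = 0 then 0 else 1

theorem cf_sum : ∀ k t, ∑ p ∈ univ.filter fun p => kap p = k, cf (t + nu p) = 0 := by
  decide +kernel

theorem main : ∃ (G : Type) (_ : Group G), (∀ (g : G) (n : ℕ), 0 < n → g ^ n = 1 → g = 1) ∧
    ∃ a b : MonoidAlgebra (ZMod 2) G, a ≠ 0 ∧ b ≠ 0 ∧ a * b = 0 := by
  obtain ⟨M, ω, hM, tf⟩ := main_tf
  refine ⟨Gp (Stp ω), inferInstance, tf, ?_⟩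
  obtain ⟨f, hf⟩ := exists_dev' (Stp.sym (ω := ω))
  obtain ⟨ξ, hξ⟩ := exists_xi ω
  have cd : ∑ _v : ZMod 21 × ZMod 3 × Fin M, (1 : ZMod 2) = 1 := by
    obtain ⟨n, rfl⟩ := hM
    simp only [sum_const, card_univ, Fintype.card_prod, ZMod.card, Fintype.card_fin, nsmul_eq_mul]
    push_cast
    rw [show (2 : ZMod 2) = 0 from rfl, zero_mul, zero_add]; rfl
  obtain ⟨i, hi⟩ : ∃ i, ∑ v : ZMod 21 × ZMod 3 × Fin M,
      (if ξ (f (.inl v)) = i then (1 : ZMod 2) else 0) ≠ 0 := by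
    by_contra hc
    push Not at hc
    have := sum_eq_zero (s := univ) fun i _ => hc i
    rw [sum_comm] at this
    simp only [sum_ite_eq, mem_univ, if_true, cd] at this
    exact one_ne_zero this
  refine ⟨∑ v : ZMod 21 × ZMod 3 × Fin M, .single (f (.inl v)) (cf (i + 1 - ξ (f (.inl v)))),
    ∑ v : ZMod 21 × ZMod 3 × Fin M, .single (f (.inl v))⁻¹ 1,
    sum_single_ne _ _ ξ i ?_, sum_single_ne _ _ (fun _ => ()) () (by simp only [if_true, cd]; simp),
    ?_⟩
  · rw [sum_congr rfl (g := fun v => if ξ (f (.inl v)) = i then 1 else 0) fun v _ => ?_]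
    · exact hi
    · split_ifs with c
      · simp [c, cf]
      · rfl
  rw [Fintype.sum_prod_type, Fintype.sum_prod_type (f := fun v => MonoidAlgebra.single _ 1),
    sum_mul_sum, ← line_sum]
  simp only [← sum_mul_sum]
  let A : ZMod 21 → ZMod 3 → MonoidAlgebra (ZMod 2) (Gp (Stp ω)) := fun k t =>
    ∑ y : ZMod 3 × FF M, .single (f (.inr (k, y))) (cf (i + 1 - ξ (f (.inr (k, y))) + t))
  let B : ZMod 21 → MonoidAlgebra (ZMod 2) (Gp (Stp ω)) := fun k =>
    ∑ y : ZMod 3 × FF M, .single (f (.inr (k, y)))⁻¹ 1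
  let ε : ZMod 21 → (Fin 5 × ZMod 3 × Fin M ≃ ZMod 3 × FF M) := fun p =>
    { toFun := fun x => (x.2.1 - nu p, ω (p, x.2.1) (x.1, x.2.2))
      invFun := fun y => (((ω (p, y.1 + nu p)).symm y.2).1, y.1 + nu p,
        ((ω (p, y.1 + nu p)).symm y.2).2)
      left_inv := fun x => by simp
      right_inv := fun y => by simp }
  have st : ∀ p x, f (.inr (kap p, ε p x)) =
      f (.inl (p - DD x.1, x.2)) * gen (Stp ω) (p, true) := fun p x =>
    hf _ _ _ ⟨((p, x.2.1), (x.1, x.2.2), ω (p, x.2.1) (x.1, x.2.2)), rfl, rfl, rfl, rfl⟩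
  have k : ∀ p, (∑ d, ∑ y : ZMod 3 × Fin M, MonoidAlgebra.single (f (.inl (p - DD d, y)))
      (cf (i + 1 - ξ (f (.inl (p - DD d, y)))))) *
      (∑ d, ∑ y : ZMod 3 × Fin M, MonoidAlgebra.single (f (.inl (p - DD d, y)))⁻¹ (1 : ZMod 2)) =
      A (kap p) (nu p) * B (kap p) := by
    intro p
    simp only [A, B]
    rw [← Fintype.sum_prod_type', ← Fintype.sum_prod_type', ← (ε p).sum_comp, ← (ε p).sum_comp,
      sum_mul_sum, sum_mul_sum]
    refine sum_congr rfl fun x _ => sum_congr rfl fun x' _ => ?_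
    rw [st, st, hξ, MonoidAlgebra.single_mul_single, MonoidAlgebra.single_mul_single]
    congr 1
    · group
    · congr 2; ring
  rw [sum_congr rfl fun p _ => k p, ← sum_fiberwise univ kap]
  refine sum_eq_zero fun c _ => ?_
  rw [sum_congr rfl (g := fun p => A c (nu p) * B c) fun p hp => by rw [(mem_filter.1 hp).2],
    ← sum_mul]
  simp only [A]
  rw [sum_comm, sum_eq_zero, zero_mul]
  intro y _
  exact (map_sum (MonoidAlgebra.singleAddHom (f (.inr (c, y)))) _ _).symm.trans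
    (by rw [cf_sum, map_zero])

end Vale.Agent.P201
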