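import Vale.Agent.P201.Coarse
import Vale.Agent.P201.Local3

/-! No reduced spherical pictures. -/

namespace Vale.Agent.P201

open Function Finset Equiv Vale.Agent.P194

variable {M : ℕ}

/-- conclusion of the local lemma -/
def LL (J h N' Ψ : ℕ) (ω : QQ → Perm (FF M)) : Prop :=
  ∀ (len : Fin J → ℕ) (β : Fin J → Fin J) (vx : Fin J × ℕ → VV M) (ed : Fin J × ℕ → EE M)
    (O : Finset (Fin J × ℕ)) (nx : Fin J × ℕ → Fin J × ℕ), Sy ω len β vx ed →
    (∀ σ, len σ ≤ h) → (∀ d ∈ O, d.2 < len d.1) →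
    (∀ d : Fin J × ℕ, d.2 < len d.1 → d ∉ O →
      (nx d).2 < len (nx d).1 ∧ vx (nx d) = vx (su d) ∧ ed (nx d) ≠ ed d) →
    (∀ d : Fin J × ℕ, d.2 < len d.1 → d ∉ O → ∀ d' : Fin J × ℕ, d'.2 < len d'.1 → d' ∉ O →
      nx d = nx d' → d = d') →
    25 ^ (∑ σ, len σ) * N' ^ (4 * ∑ σ, len σ) ≤
      Ψ * 24 ^ (∑ σ, len σ) * (5 * M) ^ (4 * (∑ σ, len σ + O.card))

theorem cluster {J h N' Ψ : ℕ} {ω : QQ → Perm (FF M)} (H : LL J h N' Ψ ω) (hM : 0 < M)
    {K : Type} [DecidableEq K] {L : K → ℕ} {β nxt : K → K} {vx : K × ℕ → VV M}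
    {ed : K × ℕ → EE M} (S : Sy ω L β vx ed) (hL : ∀ x, 0 < L x ∧ L x ≤ h) (hn : Injective nxt)
    (n1 : ∀ x, vx (nxt x, 0) = vx (x, L x)) (n2 : ∀ x, ed (nxt x, 0) ≠ ed (x, L x - 1))
    (C : Finset K) (hC : C.card ≤ J) (x₀ : K) (hβ : ∀ x ∈ C, β x ∈ C) :
    25 ^ (∑ x ∈ C, L x) * N' ^ (4 * ∑ x ∈ C, L x) ≤ Ψ * 24 ^ (∑ x ∈ C, L x) *
      (5 * M) ^ (4 * (∑ x ∈ C, L x + (C.filter fun x => nxt x ∉ C).card)) := by
  classical
  rcases C.eq_empty_or_nonempty with rfl | ⟨y₀, hy₀⟩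
  · have := H 0 id (fun _ => vx (x₀, 0)) (fun _ => ed (x₀, 0)) ∅ id
      ⟨fun σ => ⟨fun i hi => absurd hi (by simp), fun i hi => absurd hi (by simp),
        fun i hi => absurd hi (by simp)⟩, fun _ => rfl, fun _ => rfl, fun _ _ _ => rfl,
        fun _ _ _ _ => rfl, fun σ i _ hi => absurd hi (by simp)⟩ (by simp) (by simp) (by simp)
        (by simp)
    simpa using this
  obtain ⟨e⟩ := Function.Embedding.nonempty_of_card_le (α := C) (β := Fin J) (by simpa using hC)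
  let idx : K → Fin J := fun x => if hx : x ∈ C then e ⟨x, hx⟩ else e ⟨y₀, hy₀⟩
  have ii : ∀ x ∈ C, ∀ y ∈ C, idx x = idx y → x = y := by
    intro x hx y hy h
    simp only [idx, dif_pos hx, dif_pos hy] at h
    exact congrArg Subtype.val (e.injective h)
  let st : Fin J → K := fun σ => if h : ∃ x ∈ C, idx x = σ then h.choose else x₀
  have st1 : ∀ x ∈ C, st (idx x) = x := by
    intro x hx
    have h : ∃ y ∈ C, idx y = idx x := ⟨x, hx, rfl⟩
    simp only [st, dif_pos h]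
    exact ii _ h.choose_spec.1 _ hx h.choose_spec.2
  let len : Fin J → ℕ := fun σ => if σ ∈ C.image idx then L (st σ) else 0
  let β' : Fin J → Fin J := fun σ => if σ ∈ C.image idx then idx (β (st σ)) else σ
  have l1 : ∀ x ∈ C, len (idx x) = L x := fun x hx => by
    simp only [len, if_pos (mem_image_of_mem idx hx), st1 x hx]
  have l2 : ∀ x ∈ C, β' (idx x) = idx (β x) := fun x hx => by
    simp only [β', if_pos (mem_image_of_mem idx hx), st1 x hx]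
  have cs : ∀ σ, (∃ x ∈ C, idx x = σ) ∨ (len σ = 0 ∧ β' σ = σ) := fun σ => by
    by_cases c : σ ∈ C.image idx
    · exact Or.inl (mem_image.1 c)
    · right; simp only [len, β', if_neg c, and_self]
  have cs' : ∀ σ i, i < len σ → ∃ x ∈ C, idx x = σ := fun σ i hi =>
    (cs σ).resolve_right fun h => by omega
  have sm : ∑ σ, len σ = ∑ x ∈ C, L x := by
    rw [← sum_subset (subset_univ (C.image idx)) fun σ _ c => by simp only [len, if_neg c],
      sum_image ii]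
    exact sum_congr rfl l1
  let O := (C.filter fun x => nxt x ∉ C).image fun x => (idx x, L x - 1)
  have o1 : ∀ x ∈ C, ∀ i, ¬ i + 1 < L x → i < L x → (idx x, i) ∉ O → nxt x ∈ C := by
    intro x hx i h1 h2 h3
    by_contra hc
    exact h3 (mem_image.2 ⟨x, mem_filter.2 ⟨hx, hc⟩, Prod.ext rfl (by dsimp only; omega)⟩)
  have := H len β' (fun p => vx (st p.1, p.2)) (fun p => ed (st p.1, p.2)) O
    (fun d => if d.2 + 1 < len d.1 then su d else (idx (nxt (st d.1)), 0))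
    ⟨fun σ => ?_, fun σ => ?_, fun σ => ?_, fun σ i hi => ?_, fun σ i h0 hi => ?_,
      fun σ i h0 hi => ?_⟩ (fun σ => ?_) ?_ ?_ ?_
  · rw [sm] at this
    refine this.trans ?_
    have : O.card ≤ _ := card_image_le
    gcongr
    omega
  · rcases cs σ with ⟨x, hx, rfl⟩ | h
    · simpa only [l1 x hx, st1 x hx] using S.nb x
    · rw [h.1]
      exact ⟨fun i hi => absurd hi (by simp), fun i hi => absurd hi (by simp),
        fun i hi => absurd hi (by simp)⟩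
  · rcases cs σ with ⟨x, hx, rfl⟩ | h
    · rw [l2 x hx, l1 x hx, l1 _ (hβ x hx), S.blen]
    · rw [h.2]
  · rcases cs σ with ⟨x, hx, rfl⟩ | h
    · rw [l2 x hx, l2 _ (hβ x hx), S.bb]
    · rw [h.2, h.2]
  · obtain ⟨x, hx, rfl⟩ := cs' σ i hi
    rw [l1 x hx] at hi
    simpa only [l1 x hx, l2 x hx, st1 x hx, st1 _ (hβ x hx)] using S.ml x i hi
  · obtain ⟨x, hx, rfl⟩ := cs' σ i hi
    rw [l1 x hx] at hi
    simpa only [l1 x hx, l2 x hx, st1 x hx, st1 _ (hβ x hx)] using S.msd x i h0 hi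
  · obtain ⟨x, hx, rfl⟩ := cs' σ i hi
    rw [l1 x hx] at hi
    simpa only [l1 x hx, l2 x hx, st1 x hx, st1 _ (hβ x hx)] using S.mne x i h0 hi
  · rcases cs σ with ⟨x, hx, rfl⟩ | h
    · rw [l1 x hx]; exact (hL x).2
    · rw [h.1]; exact Nat.zero_le _
  · intro d hd
    obtain ⟨x, hx, rfl⟩ := mem_image.1 hd
    have := hL x
    simp only [l1 x (mem_filter.1 hx).1]; omega
  · rintro ⟨σ, i⟩ hi ho
    obtain ⟨x, hx, rfl⟩ := cs' σ i hi
    simp only [l1 x hx, st1 x hx, su] at hi ⊢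
    split_ifs with c
    · simp only [l1 x hx, st1 x hx, true_and]
      exact ⟨c, (S.nb x).nb i c⟩
    · have m := o1 x hx i c hi ho
      obtain rfl : i = L x - 1 := by omega
      simp only [l1 _ m, st1 _ m]
      exact ⟨(hL _).1, by rw [n1, Nat.sub_add_cancel (hL x).1], n2 x⟩
  · rintro ⟨σ, i⟩ hi ho ⟨σ', j⟩ hj ho' e
    obtain ⟨x, hx, rfl⟩ := cs' σ i hi
    obtain ⟨y, hy, rfl⟩ := cs' σ' j hj
    simp only [l1 x hx, st1 x hx, l1 y hy, st1 y hy, su] at hi hj e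
    split_ifs at e with c1 c2 c2
    · simpa using e
    · simp at e
    · simp at e
    · obtain rfl := hn (ii _ (o1 x hx i c1 hi ho) _ (o1 y hy j c2 hj ho') (Prod.ext_iff.1 e).1)
      obtain rfl : i = j := by omega
      rfl

theorem numeric {T n n₀ A E h N N' Ψ : ℕ} (hT : 0 < T) (h0 : 0 < N') (h1 : n ≤ n₀)
    (h2 : n₀ * h ≤ 4 * T) (h3 : E * A ≤ n₀) (a1 : (N : ℝ) ^ 4 ≤ 101 / 100 * N' ^ 4)
    (a2 : (Ψ : ℝ) ^ 4 ≤ (101 / 100) ^ h) (a3 : (N : ℝ) ^ 16 ≤ (101 / 100) ^ (E * h))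
    (H : 25 ^ T * N' ^ (4 * T) ≤ Ψ ^ n * 24 ^ T * N ^ (4 * (T + A))) : False := by
  set ρ : ℝ := 101 / 100 with hρ
  have r1 : 1 ≤ ρ := by norm_num [hρ]
  have b1 : (Ψ : ℝ) ^ n ≤ ρ ^ T := by
    refine le_of_pow_le_pow_left₀ (n := 4) (by norm_num) (by positivity) ?_
    calc _ = ((Ψ : ℝ) ^ 4) ^ n := by ring
      _ ≤ (ρ ^ h) ^ n := by gcongr
      _ = ρ ^ (n * h) := by ring
      _ ≤ ρ ^ (4 * T) := pow_le_pow_right₀ r1 ((Nat.mul_le_mul_right _ h1).trans h2)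
      _ = _ := by ring
  have b2 : (N : ℝ) ^ (4 * A) ≤ ρ ^ T := by
    refine le_of_pow_le_pow_left₀ (n := 4) (by norm_num) (by positivity) ?_
    calc _ = ((N : ℝ) ^ 16) ^ A := by ring
      _ ≤ (ρ ^ (E * h)) ^ A := by gcongr
      _ = ρ ^ (E * A * h) := by ring
      _ ≤ ρ ^ (4 * T) := pow_le_pow_right₀ r1 ((Nat.mul_le_mul_right _ h3).trans h2)
      _ = _ := by ring
  have b3 : (N : ℝ) ^ (4 * T) ≤ ρ ^ T * N' ^ (4 * T) := by
    rw [pow_mul, pow_mul, ← mul_pow]; gcongr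
  have H' : (25 : ℝ) ^ T * N' ^ (4 * T) ≤ Ψ ^ n * 24 ^ T * (N ^ (4 * T) * N ^ (4 * A)) := by
    rw [← pow_add, ← mul_add]; exact_mod_cast H
  have b4 : (25 : ℝ) ^ T * N' ^ (4 * T) ≤ (24 * ρ ^ 3) ^ T * N' ^ (4 * T) := by
    calc _ ≤ ρ ^ T * 24 ^ T * (ρ ^ T * N' ^ (4 * T) * ρ ^ T) := H'.trans (by gcongr)
      _ = _ := by ring
  have b5 := le_of_mul_le_mul_right b4 (by positivity)
  have b6 := le_of_pow_le_pow_left₀ hT.ne' (by positivity) b5
  norm_num [hρ] at b6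

theorem params (E J : ℕ) (hJ : 0 < J) (hE : ((2505 * 6 ^ 5 : ℕ) : ℝ) ^ 16 ≤ (101 / 100) ^ E) :
    ∃ h M N' : ℕ, 0 < h ∧ Odd M ∧ 0 < N' ∧ N' + (J * (2 * h) + 4 * 6 ^ (5 * h)) ≤ 5 * M ∧
      ((5 * M : ℕ) : ℝ) ^ 4 ≤ 101 / 100 * N' ^ 4 ∧
      ((((2 * (Fintype.card (Key (Fin J) (2 * h)) * J)) ^ J *
        (27783 ^ J * 5) ^ (4 * J ^ 3)) ^ 4 : ℕ) : ℝ) ^ 4 ≤ (101 / 100) ^ h ∧
      ((5 * M : ℕ) : ℝ) ^ 16 ≤ (101 / 100) ^ (E * h) := by
  let C : ℕ := ((2 * (3 ^ (J + 3 * J * J) * J ^ J * 2 ^ J * 2 ^ (J * J) * J)) ^ J *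
    (27783 ^ J * 5) ^ (4 * J ^ 3)) ^ 16
  have t := tendsto_pow_const_div_const_pow_of_one_lt ((J + 3 * J * J) * J * 16)
    (r := 101 / 100) (by norm_num)
  have c0 : (0 : ℝ) < C := by positivity
  obtain ⟨h, h1, h2⟩ := ((t.eventually (eventually_le_nhds (show (0 : ℝ) < 1 / C by
    positivity))).and (Filter.eventually_ge_atTop J)).exists
  have h0 : 0 < h := by omega
  obtain ⟨X, hX⟩ : ∃ X, X = J * (2 * h) + 4 * 6 ^ (5 * h) := ⟨_, rfl⟩
  refine ⟨h, 100 * X + 1, 499 * X + 5, h0, ⟨50 * X, by ring⟩, by omega, by omega, ?_, ?_, ?_⟩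
  · have : ((5 * (100 * X + 1) : ℕ) : ℝ) ≤ 500 / 499 * (499 * X + 5 : ℕ) := by
      push_cast; linarith
    calc _ ≤ (500 / 499 * (499 * X + 5 : ℕ) : ℝ) ^ 4 := by gcongr
      _ = (500 / 499) ^ 4 * (499 * X + 5 : ℕ) ^ 4 := mul_pow _ _ _
      _ ≤ _ := by gcongr; norm_num
  · rw [div_le_div_iff₀ (by positivity) c0, one_mul] at h1
    refine le_trans ?_ h1
    have k : Fintype.card (Key (Fin J) (2 * h)) ≤
        h ^ (J + 3 * J * J) * (3 ^ (J + 3 * J * J) * J ^ J * 2 ^ J * 2 ^ (J * J)) := by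
      simp only [Fintype.card_prod, Fintype.card_fun, Fintype.card_fin, Fintype.card_bool]
      have : 2 * h + 1 ≤ 3 * h := by omega
      calc _ ≤ (3 * h) ^ J * (J ^ J * (2 ^ J * ((3 * h * (3 * h * (3 * h * 2))) ^ J) ^ J)) := by
            gcongr
        _ = _ := by simp only [mul_pow, pow_add, ← pow_mul]; ring
    have k2 : (((2 * (Fintype.card (Key (Fin J) (2 * h)) * J)) ^ J *
        (27783 ^ J * 5) ^ (4 * J ^ 3)) ^ 4) ^ 4 ≤ h ^ ((J + 3 * J * J) * J * 16) * C := by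
      calc _ ≤ (((2 * (h ^ (J + 3 * J * J) *
            (3 ^ (J + 3 * J * J) * J ^ J * 2 ^ J * 2 ^ (J * J)) * J)) ^ J *
            (27783 ^ J * 5) ^ (4 * J ^ 3)) ^ 4) ^ 4 := by gcongr
        _ = _ := by
            simp only [C]
            generalize 3 ^ (J + 3 * J * J) * J ^ J * 2 ^ J * 2 ^ (J * J) = a
            generalize (27783 ^ J * 5) ^ (4 * J ^ 3) = b
            rw [pow_mul, pow_mul]
            generalize h ^ (J + 3 * J * J) = c
            simp only [mul_pow]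
            ring
    exact_mod_cast k2
  · have k0 : h < 2 ^ h := Nat.lt_two_pow_self
    have k1 : J * (2 * h) ≤ 6 ^ (5 * h) := by
      calc _ ≤ 2 ^ h * (2 ^ h * 2 ^ h) := by
            gcongr
            · omega
            · calc 2 = 2 ^ 1 := rfl
                _ ≤ _ := Nat.pow_le_pow_right (by norm_num) h0
        _ = 8 ^ h := by rw [← mul_pow, ← mul_pow]; norm_num
        _ ≤ (6 ^ 5) ^ h := by gcongr; norm_num
        _ = _ := (pow_mul _ _ _).symm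
    have k2 : 5 * (100 * X + 1) ≤ (2505 * 6 ^ 5) ^ h := by
      have p : 0 < 6 ^ (5 * h) := by positivity
      calc _ ≤ 2505 ^ 1 * 6 ^ (5 * h) := by omega
        _ ≤ 2505 ^ h * 6 ^ (5 * h) := by gcongr; norm_num; omega
        _ = _ := by rw [mul_pow, pow_mul]
    calc _ ≤ (((2505 * 6 ^ 5) ^ h : ℕ) : ℝ) ^ 16 := by gcongr
      _ = (((2505 * 6 ^ 5 : ℕ) : ℝ) ^ 16) ^ h := by
          rw [Nat.cast_pow, ← pow_mul, ← pow_mul, mul_comm h]
      _ ≤ ((101 / 100) ^ E) ^ h := by gcongr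
      _ = _ := (pow_mul _ _ _).symm

theorem good (E J : ℕ) (hJ : 0 < J) (hE : ((2505 * 6 ^ 5 : ℕ) : ℝ) ^ 16 ≤ (101 / 100) ^ E) :
    ∃ (h M N' Ψ : ℕ) (ω : QQ → Perm (FF M)), 0 < h ∧ Odd M ∧ 0 < N' ∧
      ((5 * M : ℕ) : ℝ) ^ 4 ≤ 101 / 100 * N' ^ 4 ∧ (Ψ : ℝ) ^ 4 ≤ (101 / 100) ^ h ∧
      ((5 * M : ℕ) : ℝ) ^ 16 ≤ (101 / 100) ^ (E * h) ∧ Gi tl hd (5 * h) ω ∧
      LL J (2 * h) N' Ψ ω := by
  obtain ⟨h, M, N', h0, hM, n0, n1, n2, n3, n4⟩ := params E J hJ hE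
  obtain ⟨ω, G, H⟩ := local_lemma J (2 * h) (5 * h) M N' hJ (by omega) (by omega) n0 n1
  exact ⟨h, M, N', _, ω, h0, hM, n0, n2, n3, n4, G, H⟩

theorem sphere : ∃ (M : ℕ) (ω : QQ → Perm (FF M)), Odd M ∧ Gi tl hd 5 ω ∧
    ∀ (D : Type) [Fintype D] [DecidableEq D] (φ : Perm D) (α : D → D) (v : D → VV M)
      (ed : D → EE M), Involutive α → (∀ d, α d ≠ d) → Pl φ α →
      (∀ d, Lk tl hd (v d) (ed d) (v (φ d))) → (∀ d, In ω (ed d)) → (∀ d, ed (φ d) ≠ ed d) →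
      (∀ d, (ed (α d)).1.1 = (ed d).1.1) → (∀ d, (v (φ (α d))).isLeft = (v d).isLeft) →
      (∀ d, φ (α d) ≠ d) → (∀ d, v (φ (α d)) ≠ v d) → IsEmpty D := by
  obtain ⟨E, hE⟩ := pow_unbounded_of_one_lt (((2505 * 6 ^ 5 : ℕ) : ℝ) ^ 16)
    (show (1 : ℝ) < 101 / 100 by norm_num)
  obtain ⟨J, hJ⟩ := hyperfinite E
  obtain ⟨h, M, N', Ψ, ω, h0, hM, n0, n2, n3, n4, G, H⟩ := good E (J + 1) (by omega) hE.le
  clear hE
  refine ⟨M, ω, hM, fun vx ed n w a b => G vx ed n w a (by omega), ?_⟩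
  intro D _ _ φ α v ed hα hn hP l1 l2 l3 l4 l5 l6 l7
  classical
  have sc : ∀ i d, φ ((φ ^ i) d) = (φ ^ (i + 1)) d := fun i d => by rw [pow_succ']; rfl
  have w : ∀ d n, NB tl hd ω (fun i => v ((φ ^ i) d)) (fun i => ed ((φ ^ i) d)) n := fun d n =>
    ⟨fun i _ => by rw [← sc]; exact l1 _, fun i _ => l2 _, fun i _ => by rw [← sc]; exact l3 _⟩
  have hf : ∀ d n, 0 < n → (φ ^ n) d = d → 5 * h ≤ n := fun d n a b =>
    not_lt.1 fun c => G _ _ n (w d n) a c (by simp [b])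
  obtain ⟨S, s1, s2⟩ := exists_sep φ h h0 fun d n a b c => by have := hf d n a c; omega
  have s3 := bad_card φ α hα hn hP l6 _ hf
  set B := univ.filter fun d => φ (α (φ (α d))) ≠ d
  let σ : Perm D := φ * hα.toPerm
  have hσ : ∀ d, σ d = φ (α d) := fun _ => rfl
  let K := B ∪ S ∪ S.image σ
  have k0 : ∀ d ∈ K, σ d ∈ K := by
    intro d hd
    by_cases c : σ d ∈ B
    · simp [K, c]
    have c' : σ (σ d) = d := by
      simp only [B, mem_filter, mem_univ, true_and, not_not] at c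
      exact σ.injective c
    simp only [K, mem_union] at hd ⊢
    rcases hd with (hd | hd) | hd
    · exact absurd c' (mem_filter.1 hd).2
    · exact Or.inr (mem_image_of_mem _ hd)
    · obtain ⟨x, hx, rfl⟩ := mem_image.1 hd
      rw [σ.injective c']
      exact Or.inl (Or.inr hx)
  have k1 : ∀ d, φ (α d) ∈ K ↔ d ∈ K := fun d =>
    ⟨fun hd => by
      have := Perm.perm_symm_on_of_perm_on_finset (f := σ) (s := K) k0 hd
      simpa [← hσ] using this, k0 d⟩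
  obtain ⟨L, nxt, β, b1, b2, b3, b4, b5, b6, b7⟩ := coarse φ α hα hP K k1
    (fun d hd => by
      by_contra c
      exact hd (mem_union_left _ (mem_union_left _ (mem_filter.2 ⟨mem_univ _, c⟩)))) (2 * h)
    (fun d => by
      obtain ⟨i, a, b, c⟩ := s2 d
      exact ⟨i, a, b.le, mem_union_left _ (mem_union_right _ c)⟩)
  obtain ⟨cl, c1, c2, c3⟩ := hJ K nxt β b1 b2
  have Sy' : Sy ω L β (fun p => v ((φ ^ p.2) p.1)) (fun p => ed ((φ ^ p.2) p.1)) := by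
    have k : ∀ (x : K) i, 0 < i → i < L x → (φ ^ (L x - i)) (β x) = φ (α ((φ ^ i) x)) := by
      intro x i a b
      rw [show L x - i = L x - 1 - i + 1 by omega, ← sc, b6 x _ (by omega),
        show L x - 1 - (L x - 1 - i) = i by omega]
    refine ⟨fun x => w x.1 (L x), b4, b1, fun x i hi => ?_, fun x i a b => ?_, fun x i a b => ?_⟩
    · dsimp only
      rw [b6 x _ (by omega), l4, show L x - 1 - (L x - 1 - i) = i by omega]
    · dsimp only
      rw [k x i a b, l5]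
    · dsimp only
      rw [k x i a b]; exact l7 _
  have cl1 := fun c (hc : c ∈ univ.image cl) => cluster H hM.pos Sy' b3 nxt.injective
    (fun x => by simp [b5]) (fun x => by
      have := l3 ((φ ^ (L x - 1)) x)
      rw [sc, Nat.sub_add_cancel (b3 x).1] at this
      simpa [b5] using this) (univ.filter fun x => cl x = c) ((c2 c).trans (Nat.le_succ J))
    (mem_image.1 hc).choose (fun x hx => by simpa [c1] using hx)
  have p := prod_le_prod' cl1
  simp only [prod_mul_distrib, prod_pow_eq_pow_sum, prod_const, ← mul_sum, sum_add_distrib] at p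
  rw [sum_fiberwise_of_maps_to (fun x _ => mem_image_of_mem cl (mem_univ x))] at p
  have eA : ∑ c ∈ univ.image cl, ((univ.filter fun x => cl x = c).filter
      fun x => nxt x ∉ univ.filter fun x => cl x = c).card =
      (univ.filter fun x => cl (nxt x) ≠ cl x).card := by
    rw [card_eq_sum_card_fiberwise (f := cl) (t := univ.image cl)
      fun x _ => mem_image_of_mem cl (mem_univ x)]
    refine sum_congr rfl fun c _ => congrArg card ?_
    ext x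
    simp only [mem_filter, mem_univ, true_and]
    constructor
    · rintro ⟨rfl, a⟩; exact ⟨a, rfl⟩
    · rintro ⟨a, rfl⟩; exact ⟨rfl, a⟩
  rw [eA] at p
  by_contra hne
  rw [not_isEmpty_iff] at hne
  have d0 : 0 < Fintype.card D := Fintype.card_pos
  refine numeric (n₀ := Fintype.card K) (by omega) n0 (card_image_le.trans (by simp)) ?_ c3 n2 n3
    n4 p
  have e1 : K.card ≤ B.card + S.card + S.card :=
    (card_union_le _ _).trans (add_le_add (card_union_le _ _) card_image_le)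
  rw [Fintype.card_coe]
  have := Nat.mul_le_mul_right h e1
  nlinarith

end Vale.Agent.P201
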